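import Vale.Agent.P286.H652.Und

/-!
# Functoriality of the middle family on cochains
-/

namespace Vale.Agent.P286.H652

open CategoryTheory TensorProduct Vale.Agent.P286.Gen Vale.Agent.P286.H295 Vale.Agent.P286.H389
  Vale.Agent.P286.H761 Vale.Agent.P286.H847

noncomputable section

variable {N : ℕ} {Γ : Gps N}

/-- A cochain of degree `n` between families, linear over the functions. -/
structure BCoch (F F' : BFam Γ) (n : ℤ) where
  f : ∀ X : Gen.BGObj Γ, (F.M X).V →ₗ[ℂ] (F'.M X).V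
  lin : ∀ (X : Gen.BGObj Γ) (a : X.A.R) (x : (F.M X).V), f X (a • x) = a • f X x
  deg : ∀ (X : Gen.BGObj Γ) (m : ℤ) (x : (F.M X).V), x ∈ (F.M X).gr m → f X x ∈ (F'.M X).gr (m + n)
  nat : ∀ {X Y : Gen.BGObj Γ} (φ : X ⟶ Y) (x : (F.M X).V),
    f Y ((F.t φ).f x) = (F'.t φ).f (f X x)

variable {F F' F'' : BFam Γ} {n : ℤ}

/-- The cochain of the families of jets. -/
def jtC (z : BCoch F F' n) : GTD.Coch (jt F) (jt F') n :=
  JFam.coch (F := F.toJ) (F' := F'.toJ) (strBG Γ) (fun (X : Gen.BGObj Γ) => z.f X)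
    (fun (X : Gen.BGObj Γ) => DO.lin (z.lin X)) (fun (X : Gen.BGObj Γ) => z.deg X)
    (fun {X Y} φ x => z.nat (X := X) (Y := Y) φ x)

theorem jtC_apply (z : BCoch F F' n) (X : Gen.BGObj Γ) (x : (JG (F.M X)).V) :
    (jtC z).f X x = J.map (z.f X) (DO.lin (z.lin X)) x := rfl

/-- The map of the restrictions. -/
def rC (z : BCoch F F' n) {A B : Gen.BGObj Γ} (ι : A ⟶ B) : (uMod F ι).V →ₗ[ℂ] (uMod F' ι).V :=
  z.f B

theorem rC_lin (z : BCoch F F' n) {A B : Gen.BGObj Γ} (ι : A ⟶ B) (a : A.A.R)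
    (x : (uMod F ι).V) : rC z ι (a • x) = a • rC z ι x := z.lin B (ι.f a) x

/-- The map of the jets. -/
def jC (z : BCoch F F' n) {A B : Gen.BGObj Γ} (ι : A ⟶ B) :
    (JG (uMod F ι)).V →ₗ[ℂ] (JG (uMod F' ι)).V := J.map (rC z ι) (DO.lin (rC_lin z ι))

theorem jC_uJ (z : BCoch F F' n) {A A' B B' : Gen.BGObj Γ} {ι : A ⟶ B} {ι' : A' ⟶ B'}
    {ψ : B ⟶ B'} {φ : A ⟶ A'} (h : ι ≫ ψ = φ ≫ ι') (x : (JG (uMod F ι)).V) :
    jC z ι' ((uJ F h).f x) = (uJ F' h).f (jC z ι x) :=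
  (J.pull_map φ.f (uT F ι ι' ψ).f (uT_sl F h) (uT F' ι ι' ψ).f (uT_sl F' h) (rC z ι)
    (DO.lin (rC_lin z ι)) (rC z ι') (DO.lin (rC_lin z ι')) (fun y => (z.nat ψ y).symm) x).symm

theorem jC_gU (z : BCoch F F' n) {A A' B : Gen.BGObj Γ} {χ : A ⟶ A'} {ι : A' ⟶ B} {κ : A ⟶ B}
    (h : κ = χ ≫ ι) (x : (JG (F.M A)).V) :
    jC z ι ((gU F h).f x) = (gU F' h).f (J.map (z.f A) (DO.lin (z.lin A)) x) :=
  (J.pull_map χ.f (gT F ι κ).f (gT_sl F h) (gT F' ι κ).f (gT_sl F' h) (z.f A)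
    (DO.lin (z.lin A)) (rC z ι) (DO.lin (rC_lin z ι)) (fun y => (z.nat κ y).symm) x).symm

variable [hs : Algebra.Smooth ℂ (Of Γ)]

/-- The cochain of the levels. -/
def levC (z : BCoch F F' n) (k : ℕ) :
    GTD.Coch ((lev F k).JT (strBG Γ)) ((lev F' k).JT (strBG Γ)) n :=
  JFam.coch (F := lev F k) (F' := lev F' k) (strBG Γ)
    (fun (A : Gen.BGObj Γ) => rC z (uA A k)) (fun (A : Gen.BGObj Γ) => DO.lin (rC_lin z (uA A k)))
    (fun (A : Gen.BGObj Γ) m x hx => z.deg ((undS A).P k) m x hx)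
    (fun {A B} φ x => z.nat ((undM (show (A : Gen.BGObj Γ) ⟶ B from φ)).P k) x)

theorem levC_apply (z : BCoch F F' n) (k : ℕ) (A : Gen.BGObj Γ) (x : (JG (uMod F (uA A k))).V) :
    (levC z k).f A x = jC z (uA A k) x := rfl

theorem levC_face (z : BCoch F F' n) (A : Gen.BGObj Γ) :
    CS.FcComm (X := (midCS F).at' A) (Y := (midCS F').at' A) (fun k => (levC z k).f A) := by
  intro k i _ x
  exact jC_uJ z (φ := 𝟙 A) ((fcR_w A k i).trans (Category.id_comp _).symm) x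

/-- The cochain of the middle families. -/
def midC (z : BCoch F F' n) : GTD.Coch (mid F) (mid F') n :=
  GCS.totCoch (C := midCS F) (C' := midCS F') (levC z) (fun A => levC_face z A)

theorem midC_apply (z : BCoch F F' n) (A : Gen.BGObj Γ) (x : ((mid F).F A).V) (k : ℕ) :
    ((midC z).f A x : ∀ k, ((midCS F').at' A |>.X k).V) k =
      GCS.sgn n ^ k • jC z (uA A k) (x k) := rfl

omit hs in
theorem jC_congr {z w : BCoch F F' n} (h : ∀ X x, z.f X x = w.f X x) {A B : Gen.BGObj Γ}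
    (ι : A ⟶ B) (x : (JG (uMod F ι)).V) : jC z ι x = jC w ι x := by
  have e : rC z ι = rC w ι := LinearMap.ext (h B)
  unfold jC
  rw [J.map_congr e]

omit hs in
theorem jC_one {z : BCoch F F 0} (h : ∀ X x, z.f X x = x) {A B : Gen.BGObj Γ}
    (ι : A ⟶ B) (x : (JG (uMod F ι)).V) : jC z ι x = x := by
  have e : rC z ι = LinearMap.id := LinearMap.ext (h B)
  unfold jC
  rw [J.map_congr e _ DO.id, J.map_id]
  rfl

omit hs in
theorem jC_add {z w v : BCoch F F' n} (h : ∀ X x, v.f X x = z.f X x + w.f X x)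
    {A B : Gen.BGObj Γ} (ι : A ⟶ B) (x : (JG (uMod F ι)).V) : jC v ι x = jC z ι x + jC w ι x := by
  have e : rC v ι = rC z ι + rC w ι := LinearMap.ext (h B)
  unfold jC
  rw [J.map_congr e _ ((DO.lin (rC_lin z ι)).add (DO.lin (rC_lin w ι))), J.map_add]
  rfl

omit hs in
theorem jC_smul {z w : BCoch F F' n} (c : ℂ) (h : ∀ X x, w.f X x = c • z.f X x)
    {A B : Gen.BGObj Γ} (ι : A ⟶ B) (x : (JG (uMod F ι)).V) : jC w ι x = c • jC z ι x := by
  have e : rC w ι = c • rC z ι := LinearMap.ext (h B)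
  unfold jC
  rw [J.map_congr e _ ((DO.lin (rC_lin z ι)).smul c), J.map_smul]
  rfl

omit hs in
theorem jC_cmp {m p : ℤ} {z : BCoch F F' n} {w : BCoch F' F'' m} {v : BCoch F F'' p}
    (h : ∀ X x, v.f X x = w.f X (z.f X x)) {A B : Gen.BGObj Γ} (ι : A ⟶ B)
    (x : (JG (uMod F ι)).V) : jC v ι x = jC w ι (jC z ι x) := by
  have e : rC v ι = rC w ι ∘ₗ rC z ι := LinearMap.ext (h B)
  unfold jC
  rw [J.map_congr e _ ((DO.lin (rC_lin w ι)).comp (DO.lin (rC_lin z ι))), J.map_comp]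
  rfl

omit hs in
theorem jC_dl {p : ℤ} {z : BCoch F F' n} {w : BCoch F F' p}
    (h : ∀ X x, w.f X x = (F'.M X).d (z.f X x) - (n.negOnePow : ℤ) • z.f X ((F.M X).d x))
    {A B : Gen.BGObj Γ} (ι : A ⟶ B) (x : (JG (uMod F ι)).V) :
    jC w ι x = (JG (uMod F' ι)).d (jC z ι x) - (n.negOnePow : ℤ) • jC z ι ((JG (uMod F ι)).d x) := by
  have e : rC w ι = (uMod F' ι).d ∘ₗ rC z ι - GCS.sgn n • (rC z ι ∘ₗ (uMod F ι).d) := by
    apply LinearMap.ext
    intro y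
    have := h B y
    rw [GCS.sgn_smul] at this
    exact this
  have h1 : DO A.A.R ((uMod F' ι).d ∘ₗ rC z ι) := (uMod F' ι).dO.comp (DO.lin (rC_lin z ι))
  have h2 : DO A.A.R (rC z ι ∘ₗ (uMod F ι).d) := (DO.lin (rC_lin z ι)).comp (uMod F ι).dO
  rw [GCS.sgn_smul]
  unfold jC
  rw [J.map_congr e _ (h1.sub (h2.smul (GCS.sgn n))), J.map_sub _ h1 _ (h2.smul (GCS.sgn n)),
    J.map_smul (GCS.sgn n) _ h2, J.map_comp _ (uMod F' ι).dO, J.map_comp _ _ _ (uMod F ι).dO]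
  rfl

theorem midC_congr {z w : BCoch F F' n} (h : ∀ X x, z.f X x = w.f X x) : midC z = midC w :=
  GCS.totCoch_congr (C := midCS F) (C' := midCS F')
    (fun k (A : Gen.BGObj Γ) x => jC_congr h (uA A k) x)

theorem midC_one {z : BCoch F F 0} (h : ∀ X x, z.f X x = x) : midC z = GTD.Coch.one (mid F) :=
  GCS.totCoch_one (C := midCS F) (fun k (A : Gen.BGObj Γ) x => jC_one h (uA A k) x)

theorem midC_add {z w v : BCoch F F' n} (h : ∀ X x, v.f X x = z.f X x + w.f X x) :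
    midC v = midC z + midC w :=
  GCS.totCoch_add (C := midCS F) (C' := midCS F')
    (fun k (A : Gen.BGObj Γ) x => jC_add h (uA A k) x)

theorem midC_smul {z w : BCoch F F' n} (c : ℂ) (h : ∀ X x, w.f X x = c • z.f X x) :
    midC w = c • midC z :=
  GCS.totCoch_smul (C := midCS F) (C' := midCS F') c
    (fun k (A : Gen.BGObj Γ) x => jC_smul c h (uA A k) x)

theorem midC_cmp {m p : ℤ} (hp : n + m = p) {z : BCoch F F' n} {w : BCoch F' F'' m}
    {v : BCoch F F'' p} (h : ∀ X x, v.f X x = w.f X (z.f X x)) :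
    midC v = (midC z).cmp (midC w) hp :=
  GCS.totCoch_cmp (C := midCS F) (C' := midCS F') (C'' := midCS F'') hp
    (fun k (A : Gen.BGObj Γ) x => jC_cmp h (uA A k) x)

theorem midC_dl {p : ℤ} (hp : n + 1 = p) {z : BCoch F F' n} {w : BCoch F F' p}
    (h : ∀ X x, w.f X x = (F'.M X).d (z.f X x) - (n.negOnePow : ℤ) • z.f X ((F.M X).d x)) :
    midC w = (midC z).dl hp :=
  GCS.totCoch_dl (C := midCS F) (C' := midCS F') hp
    (fun k (A : Gen.BGObj Γ) x => jC_dl h (uA A k) x)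

/-- The augmentation is natural. -/
theorem midAug_nat (z : BCoch F F' n) :
    (midAug F).tot.coch.cmp (midC z) (zero_add n) =
      (jtC z).cmp (midAug F').tot.coch (add_zero n) :=
  GCS.totCoch_aug (C := midCS F) (C' := midCS F') (midAug F) (midAug F') (jtC z)
    (fun (A : Gen.BGObj Γ) x => jC_gU z (χ := 𝟙 A) (ι := inl A) (Category.id_comp _).symm x)

end

end Vale.Agent.P286.H652
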