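import Vale.Agent.P286.H389.Tns
import Vale.Agent.P286.H697.OmF
import Vale.Agent.P286.H710.Lam
import Vale.Agent.P286.H652.Fun

/-!
# Tensor products with a contractible space, and jets
-/

namespace Vale.Agent.P286.H652

open CategoryTheory TensorProduct Vale.Agent.P286.Gen Vale.Agent.P286.H295 Vale.Agent.P286.H389
  Vale.Agent.P286.H761 Vale.Agent.P286.H847 Vale.Agent.P286.H710 Vale.Agent.P286.H697

noncomputable section

section Alg

variable {A : Type} [CommRing A] [Algebra ℂ A]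

/-- A linear homotopy equivalence induces a quasi-isomorphism of the jets. -/
theorem qis_JG_of_htpy {M M' : AGD A} (u : GD.Hom M.toGD M'.toGD)
    (hu : ∀ (a : A) (x : M.V), u.f (a • x) = a • u.f x) (v : GD.Hom M'.toGD M.toGD)
    (hv : ∀ (a : A) (x : M'.V), v.f (a • x) = a • v.f x) (hvu : ∀ x, v.f (u.f x) = x)
    (H : M'.V →ₗ[ℂ] M'.V) (hH : ∀ (a : A) (x : M'.V), H (a • x) = a • H x)
    (hg : ∀ m, ∀ x ∈ M'.gr m, H x ∈ M'.gr (m - 1))
    (h : ∀ x, M'.d (H x) + H (M'.d x) = x - u.f (v.f x)) : GD.Qis (JG.map u hu) := by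
  refine GD.Qis.of_htpy (JG.map u hu) (JG.map v hv) 0 (fun _ _ _ => zero_mem _)
    (fun m x _ => ?_) (J.map H (DO.lin hH)) (fun m x hx => JG.map_gr H (DO.lin hH) (hg m) hx)
    (fun m x _ => ?_)
  · have e : (JG.map v hv).f ((JG.map u hu).f x) = x := by
      have e1 : v.f ∘ₗ u.f = LinearMap.id := LinearMap.ext hvu
      have e2 := J.map_comp v.f (DO.lin hv) u.f (DO.lin hu)
      rw [J.map_congr e1 _ DO.id, J.map_id] at e2
      exact (LinearMap.congr_fun e2 x).symm
    rw [e]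
    simp
  · have e1 : M'.d ∘ₗ H + H ∘ₗ M'.d = LinearMap.id - u.f ∘ₗ v.f := LinearMap.ext h
    have h1 : DO A (M'.d ∘ₗ H) := M'.dO.comp (DO.lin hH)
    have h2 : DO A (H ∘ₗ M'.d) := (DO.lin hH).comp M'.dO
    have h3 : DO A (u.f ∘ₗ v.f) := (DO.lin hu).comp (DO.lin hv)
    have e2 := J.map_add _ h1 _ h2
    rw [J.map_congr e1 _ (DO.id.sub h3), J.map_sub _ DO.id _ h3, J.map_id,
      J.map_comp _ M'.dO _ (DO.lin hH), J.map_comp _ (DO.lin hH) _ M'.dO,
      J.map_comp _ (DO.lin hu) _ (DO.lin hv)] at e2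
    exact (LinearMap.congr_fun e2 x).symm

/-- The tensor product of a space with sign operator with a module. -/
def wA (W : SGD) (M : AGD A) (h : O1 A M.d) : AGD A :=
  letI := rmod A W.V M.V
  haveI := rtow A W.V M.V
  { toGD := SGD.tens W M.toGD
    am := rmod A W.V M.V
    at' := rtow A W.V M.V
    sm := fun a m x hx => by
      refine SGD.map_tgr (T := rm A W.V M.V a) ?_ hx
      intro i j w y hij hw hy
      exact SGD.tmul_mem hij hw (M.sm a j y hy)
    dO := by
      obtain ⟨e, he⟩ := h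
      refine Ord1.do (A := A) (e := fun a => TensorProduct.map W.sg (e a)) ⟨fun a x => ?_,
        fun a b x => map_rm W.sg (e a) (he.lin a) b x⟩
      change SGD.td W M.toGD (rm A W.V M.V a x) = rm A W.V M.V a (SGD.td W M.toGD x) +
        TensorProduct.map W.sg (e a) x
      induction x using TensorProduct.induction_on with
      | zero => simp
      | tmul w y =>
        rw [rm_tmul, SGD.td_tmul, SGD.td_tmul, map_add, rm_tmul, rm_tmul, TensorProduct.map_tmul,
          he.comm, tmul_add, add_assoc]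
      | add x y hx hy =>
        rw [map_add, map_add, hx, hy, map_add, map_add, map_add]
        abel }

theorem wA_smul (W : SGD) (M : AGD A) (h : O1 A M.d) (a : A) (x : W.V ⊗[ℂ] M.V) :
    ((a • (show (wA W M h).V from x) : (wA W M h).V) : W.V ⊗[ℂ] M.V) = rm A W.V M.V a x := rfl

theorem wA_o1 (W : SGD) (M : AGD A) (h : O1 A M.d) : O1 A (wA W M h).d := by
  obtain ⟨e, he⟩ := h
  refine ⟨fun a => (TensorProduct.map W.sg (e a) : W.V ⊗[ℂ] M.V →ₗ[ℂ] W.V ⊗[ℂ] M.V),
    ⟨fun a x => ?_, fun a b x => map_rm W.sg (e a) (he.lin a) b x⟩⟩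
  change SGD.td W M.toGD (rm A W.V M.V a x) = rm A W.V M.V a (SGD.td W M.toGD x) +
    TensorProduct.map W.sg (e a) x
  change W.V ⊗[ℂ] M.V at x
  induction x using TensorProduct.induction_on with
  | zero => simp
  | tmul w y =>
    rw [rm_tmul, SGD.td_tmul, SGD.td_tmul, map_add, rm_tmul, rm_tmul, TensorProduct.map_tmul,
      he.comm, tmul_add, add_assoc]
  | add x y hx hy =>
    rw [map_add, map_add, hx, hy, map_add, map_add, map_add]
    abel

/-- A contraction of a space with sign operator. -/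
structure Ctr (W : SGD) where
  o : W.V
  ep : W.V →ₗ[ℂ] ℂ
  h : W.V →ₗ[ℂ] W.V
  o_d : W.d o = 0
  o_sg : W.sg o = o
  o_gr : o ∈ W.gr 0
  ep_o : ep o = 1
  ep_d : ∀ x, ep (W.d x) = 0
  ep_sg : ∀ x, ep (W.sg x) = ep x
  ep_gr : ∀ m, m ≠ 0 → ∀ x ∈ W.gr m, ep x = 0
  h_sg : ∀ x, h (W.sg x) = - W.sg (h x)
  h_gr : ∀ m, ∀ x ∈ W.gr m, h x ∈ W.gr (m - 1)
  eq : ∀ x, W.d (h x) + h (W.d x) = x - ep x • o

variable {W : SGD} (C : Ctr W) (M : AGD A) (hM : O1 A M.d)

/-- The inclusion `x ↦ 1 ⊗ x`. -/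
def cIn : GD.Hom M.toGD (wA W M hM).toGD where
  f := TensorProduct.mk ℂ W.V M.V C.o
  comm x := by
    change C.o ⊗ₜ M.d x = SGD.td W M.toGD (C.o ⊗ₜ x)
    rw [SGD.td_tmul, C.o_d, C.o_sg, zero_tmul, zero_add]
  deg m x hx := SGD.tmul_mem (zero_add m) C.o_gr hx

/-- The retraction `w ⊗ x ↦ ε(w) x`. -/
def cOutL : W.V ⊗[ℂ] M.V →ₗ[ℂ] M.V :=
  (TensorProduct.lid ℂ M.V).toLinearMap ∘ₗ C.ep.rTensor M.V

theorem cOutL_tmul (w : W.V) (x : M.V) : cOutL C M (w ⊗ₜ x) = C.ep w • x := rfl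

/-- The retraction `w ⊗ x ↦ ε(w) x`. -/
def cOut : GD.Hom (wA W M hM).toGD M.toGD where
  f := cOutL C M
  comm x := by
    change W.V ⊗[ℂ] M.V at x
    change cOutL C M (SGD.td W M.toGD x) = M.d (cOutL C M x)
    induction x using TensorProduct.induction_on with
    | zero => simp
    | tmul w y =>
      rw [SGD.td_tmul, map_add, cOutL_tmul, cOutL_tmul, cOutL_tmul, C.ep_d, C.ep_sg, zero_smul,
        zero_add, map_smul]
    | add x y hx hy => rw [map_add, map_add, hx, hy, map_add, map_add]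
  deg m x hx := by
    have h : SGD.tgr W.toGD M.toGD m ≤ (M.gr m).comap (cOutL C M) := by
      refine SGD.tgr_le fun i j w y hij hw hy => ?_
      rw [Submodule.mem_comap, cOutL_tmul]
      by_cases hi : i = 0
      · subst hi
        rw [zero_add] at hij
        subst hij
        exact Submodule.smul_mem _ _ hy
      · rw [C.ep_gr i hi w hw, zero_smul]
        exact zero_mem _
    exact h hx

theorem cIn_lin (a : A) (x : M.V) : (cIn C M hM).f (a • x) = a • (cIn C M hM).f x := rfl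

theorem cOut_lin (a : A) (x : (wA W M hM).V) :
    (cOut C M hM).f (a • x) = a • (cOut C M hM).f x := by
  change W.V ⊗[ℂ] M.V at x
  change cOutL C M (rm A W.V M.V a x) = a • cOutL C M x
  induction x using TensorProduct.induction_on with
  | zero => simp
  | tmul w y => rw [rm_tmul, cOutL_tmul, cOutL_tmul, smul_comm]
  | add x y hx hy => rw [map_add, map_add, hx, hy, map_add, smul_add]

theorem cOut_cIn (x : M.V) : (cOut C M hM).f ((cIn C M hM).f x) = x := by
  change cOutL C M (C.o ⊗ₜ x) = x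
  rw [cOutL_tmul, C.ep_o, one_smul]

theorem ctr_eq (x : W.V ⊗[ℂ] M.V) :
    SGD.td W M.toGD (C.h.rTensor M.V x) + C.h.rTensor M.V (SGD.td W M.toGD x) =
      x - C.o ⊗ₜ cOutL C M x := by
  induction x using TensorProduct.induction_on with
  | zero => simp
  | tmul w y =>
    rw [LinearMap.rTensor_tmul, SGD.td_tmul, SGD.td_tmul, map_add, LinearMap.rTensor_tmul,
      LinearMap.rTensor_tmul, C.h_sg, cOutL_tmul, neg_tmul]
    have e : W.d (C.h w) ⊗ₜ[ℂ] y + C.h (W.d w) ⊗ₜ[ℂ] y = w ⊗ₜ[ℂ] y - C.o ⊗ₜ[ℂ] (C.ep w • y) := by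
      rw [← add_tmul, C.eq, sub_tmul, smul_tmul]
    rw [← e]
    abel
  | add x y hx hy =>
    rw [map_add, map_add, map_add, map_add, map_add, tmul_add, add_sub_add_comm, ← hx, ← hy]
    abel

/-- **The insertion is a quasi-isomorphism.** -/
theorem qis_cIn : GD.Qis (JG.map (cIn C M hM) (cIn_lin C M hM)) := by
  refine qis_JG_of_htpy (cIn C M hM) (cIn_lin C M hM) (cOut C M hM) (cOut_lin C M hM)
    (cOut_cIn C M hM) (C.h.rTensor M.V) ?_ ?_ (ctr_eq C M)
  · intro a x
    exact map_rm C.h LinearMap.id (fun _ _ => rfl) a x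
  · intro m x hx
    refine SGD.map_tgr (T := C.h.rTensor M.V) ?_ hx
    intro i j w y hij hw hy
    exact SGD.tmul_mem (by rw [← hij]; ring) (C.h_gr i w hw) hy

end Alg

section Fam

variable {N : ℕ} {Γ : Gps N}

/-- A morphism of families, linear over the functions. -/
structure BHom (F F' : BFam Γ) where
  f : ∀ X : Gen.BGObj Γ, GD.Hom (F.M X).toGD (F'.M X).toGD
  lin : ∀ (X : Gen.BGObj Γ) (a : X.A.R) (x : (F.M X).V), (f X).f (a • x) = a • (f X).f x
  nat : ∀ {X Y : Gen.BGObj Γ} (φ : X ⟶ Y) (x : (F.M X).V),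
    (f Y).f ((F.t φ).f x) = (F'.t φ).f ((f X).f x)

theorem BHom.jt_tr {F F' : BFam Γ} (u : BHom F F') {X Y : Gen.BGObj Γ} (φ : X ⟶ Y)
    (x : (JG (F.M X)).V) :
    (JG.map (u.f Y) (u.lin Y)).f ((JG.pull φ.f (F.t φ) (F.sl φ)).f x) =
      (JG.pull φ.f (F'.t φ) (F'.sl φ)).f ((JG.map (u.f X) (u.lin X)).f x) :=
  (J.pull_map φ.f (F.t φ).f (F.sl φ) (F'.t φ).f (F'.sl φ) (u.f X).f
    (DO.lin (u.lin X)) (u.f Y).f (DO.lin (u.lin Y)) (fun y => (u.nat φ y).symm) x).symm

/-- The morphism of the families of jets. -/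
def BHom.jt {F F' : BFam Γ} (u : BHom F F') : GHom (jt F) (jt F') where
  f (X : Gen.BGObj Γ) := JG.map (u.f X) (u.lin X)
  fn (X : Gen.BGObj Γ) a x := J.map_fn (u.f X).f (DO.lin (u.lin X)) a x
  vf (X : Gen.BGObj Γ) v x := J.map_vf (u.f X).f (DO.lin (u.lin X)) v x
  tr φ x := u.jt_tr φ x

theorem om_alg {A : Type} [CommRing A] [Algebra ℂ A] (M : OmM A) (a : A) (x : M.M.V) :
    a • x = algebraMap A (Om ℂ A) a • x := (algebraMap_smul (Om ℂ A) a x).symm

theorem om_o1 {A : Type} [CommRing A] [Algebra ℂ A] (M : OmM A) :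
    Ord1 A M.M.d (fun a => (Algebra.lsmul ℂ ℂ M.M.V (Om.dd a : Om ℂ A))) where
  comm a x := by
    rw [om_alg, M.leib, Om.d_algebraMap, Om.sg.commutes, om_alg, add_comm]
    rfl
  lin a b x := by
    change (Om.dd a : Om ℂ A) • b • x = b • (Om.dd a : Om ℂ A) • x
    rw [om_alg, om_alg M b, smul_smul, smul_smul, Algebra.commutes]

/-- The module underlying a module over the differential forms. -/
def oA {A : Type} [CommRing A] [Algebra ℂ A] (M : OmM A) : AGD A where
  toGD := M.M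
  sm a m x hx := by
    rw [om_alg]
    have := M.smul_gr 0 m (algebraMap A (Om ℂ A) a) x (Om.alg_mem a) hx
    rwa [Nat.cast_zero, add_zero] at this
  dO := (om_o1 M).do

theorem oA_o1 {A : Type} [CommRing A] [Algebra ℂ A] (M : OmM A) : O1 A (oA M).d := ⟨_, om_o1 M⟩

theorem om_sl {A B : Type} [CommRing A] [Algebra ℂ A] [CommRing B] [Algebra ℂ B] (M : OmM A)
    (M' : OmM B) (f : A →ₐ[ℂ] B) (t : GD.Hom M.M M'.M)
    (ht : ∀ (w : Om ℂ A) (x : M.M.V), t.f (w • x) = Om.pb f w • t.f x) (a : A) (x : M.M.V) :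
    t.f (a • x) = f a • t.f x := by
  rw [om_alg, ht, Om.pb_alg, om_alg]

/-- The family of modules over the functions defined by a family of modules over the forms. -/
def oB (F : OmF (BGT Γ)) : BFam Γ where
  M X := oA (fib F X)
  t φ := fibt F φ
  sl {X Y} φ a x := om_sl (fib F X) (fib F Y) φ.f (fibt F φ) (fibt_smul F φ) a x
  id X x := F.t_id X x
  comp {X Y Z} φ ψ x := F.t_comp (X := X) (Y := Y) (Z := Z) φ ψ x
  o1 X := oA_o1 (fib F X)

end Fam

end

end Vale.Agent.P286.H652
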