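import Vale.Agent.P286.H847.Gtd
import Vale.Agent.P286.H761.Tot

/-!
# Product totals of semi-cosimplicial families
-/

namespace Vale.Agent.P286.H652

open CategoryTheory St Vale.Agent.P286.H847 Vale.Agent.P286.H761

noncomputable section

/-- A closed morphism of degree zero. -/
structure GHom {T : TSite} (F F' : GTD T) where
  f : ∀ X : T.C, GD.Hom (F.F X) (F'.F X)
  fn : ∀ (X : T.C) (a : T.R X) (x : (F.F X).V), (f X).f (F.fn X a x) = F'.fn X a ((f X).f x)
  vf : ∀ (X : T.C) (v : (T.A X).Der) (x : (F.F X).V),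
    (f X).f (F.vf X v x) = F'.vf X v ((f X).f x)
  tr : ∀ {X Y : T.C} (φ : X ⟶ Y) (x : (F.F X).V),
    (f Y).f ((F.tr φ).f x) = (F'.tr φ).f ((f X).f x)

namespace GHom

variable {T : TSite} {F F' F'' : GTD T}

/-- The identity. -/
def id (F : GTD T) : GHom F F := ⟨fun _ => GD.Hom.id _, fun _ _ _ => rfl, fun _ _ _ => rfl,
  fun _ _ => rfl⟩

/-- The composition. -/
def comp (v : GHom F' F'') (u : GHom F F') : GHom F F'' where
  f X := (v.f X).comp (u.f X)
  fn X a x := by
    change (v.f X).f ((u.f X).f _) = _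
    rw [u.fn, v.fn]
    rfl
  vf X a x := by
    change (v.f X).f ((u.f X).f _) = _
    rw [u.vf, v.vf]
    rfl
  tr φ x := by
    change (v.f _).f ((u.f _).f _) = _
    rw [u.tr, v.tr]
    rfl

/-- The cochain of degree zero. -/
def coch (u : GHom F F') : GTD.Coch F F' 0 where
  f X := (u.f X).f
  deg X m x hx := by rw [add_zero]; exact (u.f X).deg m x hx
  fn := u.fn
  vf := u.vf
  tr := u.tr

theorem coch_f (u : GHom F F') (X : T.C) (x : (F.F X).V) : u.coch.f X x = (u.f X).f x := rfl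

theorem dl_coch (u : GHom F F') {p : ℤ} (h : 0 + 1 = p) : u.coch.dl h = 0 := by
  apply GTD.Coch.ext'
  intro X x
  change (F'.F X).d ((u.f X).f x) - ((Int.negOnePow 0 : ℤˣ) : ℤ) • (u.f X).f ((F.F X).d x) = 0
  rw [(u.f X).comm]
  simp

/-- A closed cochain of degree zero is a morphism. -/
def ofCoch (z : GTD.Coch F F' 0) (h : z.dl (zero_add 1) = 0) : GHom F F' where
  f X :=
    { f := z.f X
      comm := fun x => by
        have h1 : (F'.F X).d (z.f X x) - ((Int.negOnePow 0 : ℤˣ) : ℤ) • z.f X ((F.F X).d x) =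
          (z.dl (zero_add 1)).f X x := rfl
        rw [h] at h1
        simp only [Int.negOnePow_zero, Units.val_one, one_smul] at h1
        exact (sub_eq_zero.1 h1).symm
      deg := fun m x hx => by
        have := z.deg X m x hx
        rwa [add_zero] at this }
  fn := z.fn
  vf := z.vf
  tr := z.tr

end GHom

/-- A semi-cosimplicial family. -/
structure GCS (T : TSite) where
  X : ℕ → GTD T
  fc : ∀ k : ℕ, ℕ → GHom (X k) (X (k + 1))
  rel : ∀ (k i j : ℕ), i ≤ j → j ≤ k + 1 → ∀ (A : T.C) (x : ((X k).F A).V),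
    ((fc (k + 1) (j + 1)).f A).f (((fc k i).f A).f x) =
      ((fc (k + 1) i).f A).f (((fc k j).f A).f x)

namespace GCS

variable {T : TSite} (C C' C'' : GCS T)

/-- The values at `A`. -/
abbrev at' (A : T.C) : CS where
  X k := (C.X k).F A
  fc k i := (C.fc k i).f A
  rel k i j hi hj x := C.rel k i j hi hj A x

/-- Functoriality of the values. -/
abbrev mor {A B : T.C} (φ : A ⟶ B) : CS.Mor (C.at' A) (C.at' B) where
  f k := (C.X k).tr φ
  face k i _ x := ((C.fc k i).tr φ x).symm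

/-- The action of the functions. -/
abbrev tfn (A : T.C) (a : T.R A) : (C.at' A).Tot.V →ₗ[ℂ] (C.at' A).Tot.V :=
  CS.totLin (X := C.at' A) (Y := C.at' A) 1 (fun k => (C.X k).fn A a)

/-- The action of the vector fields. -/
abbrev tvf (A : T.C) (v : (T.A A).Der) : (C.at' A).Tot.V →ₗ[ℂ] (C.at' A).Tot.V :=
  CS.totLin (X := C.at' A) (Y := C.at' A) 1 (fun k => (C.X k).vf A v)

theorem tfn_apply (A : T.C) (a : T.R A) (x : (C.at' A).Tot.V) (k : ℕ) :
    (C.tfn A a x : ∀ k, ((C.at' A).X k).V) k = (C.X k).fn A a (x k) := by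
  change (1 : ℂ) ^ k • (C.X k).fn A a (x k) = _
  rw [one_pow, one_smul]

theorem tvf_apply (A : T.C) (v : (T.A A).Der) (x : (C.at' A).Tot.V) (k : ℕ) :
    (C.tvf A v x : ∀ k, ((C.at' A).X k).V) k = (C.X k).vf A v (x k) := by
  change (1 : ℂ) ^ k • (C.X k).vf A v (x k) = _
  rw [one_pow, one_smul]

theorem tr_apply {A B : T.C} (φ : A ⟶ B) (x : (C.at' A).Tot.V) (k : ℕ) :
    ((C.mor φ).tot.f x : ∀ k, ((C.at' B).X k).V) k = ((C.X k).tr φ).f (x k) :=
  (C.mor φ).tot_apply x k

theorem tot_sum_apply (A : T.C) {ι : Type} (s : Finset ι) (v : ι → (C.at' A).Tot.V) (k : ℕ) :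
    (∑ i ∈ s, v i : (C.at' A).Tot.V) k = ∑ i ∈ s, (v i : ∀ k, ((C.at' A).X k).V) k :=
  Finset.sum_apply k s v

/-- The product total. -/
abbrev Tot : GTD T where
  F A := (C.at' A).Tot
  fn A a := C.tfn A a
  vf A v := C.tvf A v
  tr φ := (C.mor φ).tot
  fn_gr A a m x hx := by
    have := CS.totLin_gr (X := C.at' A) (Y := C.at' A) (σ := 1) (p := 0)
      (f := fun k => (C.X k).fn A a)
      (fun k m x hx => by rw [add_zero]; exact (C.X k).fn_gr A a m x hx) m x hx
    rwa [add_zero] at this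
  vf_gr A a m x hx := by
    have := CS.totLin_gr (X := C.at' A) (Y := C.at' A) (σ := 1) (p := 0)
      (f := fun k => (C.X k).vf A a)
      (fun k m x hx => by rw [add_zero]; exact (C.X k).vf_gr A a m x hx) m x hx
    rwa [add_zero] at this
  fn_d A a x := by
    have h := CS.totLin_D (X := C.at' A) (Y := C.at' A) (σ := 1) (f := fun k => (C.X k).fn A a)
      (fun k i _ x => ((C.fc k i).fn A a x).symm)
      (fun k x => by rw [one_smul]; exact ((C.X k).fn_d A a x).symm) x
    rw [one_smul] at h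
    exact h.symm
  vf_d A a x := by
    have h := CS.totLin_D (X := C.at' A) (Y := C.at' A) (σ := 1) (f := fun k => (C.X k).vf A a)
      (fun k i _ x => ((C.fc k i).vf A a x).symm)
      (fun k x => by rw [one_smul]; exact ((C.X k).vf_d A a x).symm) x
    rw [one_smul] at h
    exact h.symm
  dmod A :=
    { const := fun c x => by
        funext k
        rw [C.tfn_apply]
        exact ((C.X k).dmod A).const c (x k)
      fn_add := fun a b x => by
        funext k
        change (C.tfn A (a + b) x : ∀ k, ((C.at' A).X k).V) k =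
          (C.tfn A a x : ∀ k, ((C.at' A).X k).V) k + (C.tfn A b x : ∀ k, ((C.at' A).X k).V) k
        rw [C.tfn_apply, C.tfn_apply, C.tfn_apply]
        exact ((C.X k).dmod A).fn_add a b (x k)
      fn_mul := fun a b x => by
        funext k
        change (C.tfn A (a * b) x : ∀ k, ((C.at' A).X k).V) k =
          (C.tfn A a (C.tfn A b x) : ∀ k, ((C.at' A).X k).V) k
        rw [C.tfn_apply, C.tfn_apply, C.tfn_apply]
        exact ((C.X k).dmod A).fn_mul a b (x k)
      vf_add := fun a b x => by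
        funext k
        change (C.tvf A (a + b) x : ∀ k, ((C.at' A).X k).V) k =
          (C.tvf A a x : ∀ k, ((C.at' A).X k).V) k + (C.tvf A b x : ∀ k, ((C.at' A).X k).V) k
        rw [C.tvf_apply, C.tvf_apply, C.tvf_apply]
        exact ((C.X k).dmod A).vf_add a b (x k)
      vf_smul := fun a v x => by
        funext k
        change (C.tvf A (a • v) x : ∀ k, ((C.at' A).X k).V) k =
          (C.tfn A a (C.tvf A v x) : ∀ k, ((C.at' A).X k).V) k
        rw [C.tvf_apply, C.tfn_apply, C.tvf_apply]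
        exact ((C.X k).dmod A).vf_smul a v (x k)
      vf_fn := fun v a x => by
        funext k
        change (C.tvf A v (C.tfn A a x) : ∀ k, ((C.at' A).X k).V) k =
          (C.tfn A (v a) x : ∀ k, ((C.at' A).X k).V) k +
            (C.tfn A a (C.tvf A v x) : ∀ k, ((C.at' A).X k).V) k
        rw [C.tvf_apply, C.tfn_apply, C.tfn_apply, C.tfn_apply, C.tvf_apply]
        exact ((C.X k).dmod A).vf_fn v a (x k)
      vf_lie := fun v w x => by
        funext k
        change (C.tvf A ⁅v, w⁆ x : ∀ k, ((C.at' A).X k).V) k =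
          (C.tvf A v (C.tvf A w x) : ∀ k, ((C.at' A).X k).V) k -
            (C.tvf A w (C.tvf A v x) : ∀ k, ((C.at' A).X k).V) k
        rw [C.tvf_apply, C.tvf_apply, C.tvf_apply, C.tvf_apply, C.tvf_apply]
        exact ((C.X k).dmod A).vf_lie v w (x k) }
  trans A B φ :=
    { fn := fun a x => by
        funext k
        change ((C.mor φ).tot.f (C.tfn A a x) : ∀ k, ((C.at' B).X k).V) k =
          (C.tfn B (T.f φ a) ((C.mor φ).tot.f x) : ∀ k, ((C.at' B).X k).V) k
        rw [C.tr_apply, C.tfn_apply, C.tfn_apply, C.tr_apply]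
        exact ((C.X k).trans A B φ).fn a (x k)
      vf := fun w n c v h x => by
        funext k
        change (C.tfn B (T.dl φ) (C.tvf B w ((C.mor φ).tot.f x)) : ∀ k, ((C.at' B).X k).V) k =
          (C.tfn B (T.dl φ) (∑ i, C.tfn B (c i) ((C.mor φ).tot.f (C.tvf A (v i) x))) :
            ∀ k, ((C.at' B).X k).V) k -
            T.s • (C.tfn B (w (T.dl φ)) ((C.mor φ).tot.f x) : ∀ k, ((C.at' B).X k).V) k
        rw [C.tfn_apply, C.tvf_apply, C.tr_apply, C.tfn_apply, C.tot_sum_apply, C.tfn_apply,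
          C.tr_apply]
        have h1 := ((C.X k).trans A B φ).vf w n c v h (x k)
        have h2 : ∀ i, (C.tfn B (c i) ((C.mor φ).tot.f (C.tvf A (v i) x)) :
            ∀ k, ((C.at' B).X k).V) k =
            (C.X k).fn B (c i) (((C.X k).tr φ).f ((C.X k).vf A (v i) (x k))) := by
          intro i
          rw [C.tfn_apply, C.tr_apply, C.tvf_apply]
        rw [Finset.sum_congr rfl fun i _ => h2 i]
        exact h1 }
  id A x := by
    funext k
    rw [C.tr_apply]
    exact (C.X k).id A (x k)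
  comp A B D φ ψ x := by
    funext k
    rw [C.tr_apply, C.tr_apply, C.tr_apply]
    exact (C.X k).comp A B D φ ψ (x k)
  cen A φ h x := by
    funext k
    rw [C.tr_apply]
    exact (C.X k).cen A φ h (x k)

/-! ### Cochains -/

variable {C C' C''}

/-- The sign `(-1)^p` as a complex number. -/
abbrev sgn (p : ℤ) : ℂ := ((p.negOnePow : ℤ) : ℂ)

theorem sgn_zero : sgn 0 = 1 := by simp [sgn]

theorem sgn_add (p q : ℤ) : sgn (p + q) = sgn p * sgn q := by
  simp [sgn, Int.negOnePow_add]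

theorem sgn_one : sgn 1 = -1 := by simp [sgn]

theorem sgn_sq (p : ℤ) : sgn p * sgn p = 1 := by
  rw [← sgn_add, sgn, Int.negOnePow_even _ (Even.add_self p)]
  simp

theorem sgn_smul {V : Type} [AddCommGroup V] [Module ℂ V] (p : ℤ) (x : V) :
    (p.negOnePow : ℤ) • x = sgn p • x := by
  rw [sgn, Int.cast_smul_eq_zsmul]

/-- The total of a levelwise family of cochains of degree `p`, commuting with the faces. -/
def totCoch {p : ℤ} (z : ∀ k, GTD.Coch (C.X k) (C'.X k) p)
    (hz : ∀ A : T.C, CS.FcComm (X := C.at' A) (Y := C'.at' A) (fun k => (z k).f A)) :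
    GTD.Coch C.Tot C'.Tot p where
  f A := CS.totLin (X := C.at' A) (Y := C'.at' A) (sgn p) (fun k => (z k).f A)
  deg A m x hx := CS.totLin_gr (X := C.at' A) (Y := C'.at' A)
    (fun k m x hx => (z k).deg A m x hx) m x hx
  fn A a x := by
    funext k
    change sgn p ^ k • (z k).f A ((C.tfn A a x : ∀ k, ((C.at' A).X k).V) k) =
      (C'.tfn A a (CS.totLin (X := C.at' A) (Y := C'.at' A) (sgn p) (fun k => (z k).f A) x) :
        ∀ k, ((C'.at' A).X k).V) k
    rw [C.tfn_apply, C'.tfn_apply, (z k).fn, CS.totLin_apply, map_smul]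
  vf A a x := by
    funext k
    change sgn p ^ k • (z k).f A ((C.tvf A a x : ∀ k, ((C.at' A).X k).V) k) =
      (C'.tvf A a (CS.totLin (X := C.at' A) (Y := C'.at' A) (sgn p) (fun k => (z k).f A) x) :
        ∀ k, ((C'.at' A).X k).V) k
    rw [C.tvf_apply, C'.tvf_apply, (z k).vf, CS.totLin_apply, map_smul]
  tr {A B} φ x := by
    funext k
    change sgn p ^ k • (z k).f B (((C.mor φ).tot.f x : ∀ k, ((C.at' B).X k).V) k) =
      ((C'.mor φ).tot.f (CS.totLin (X := C.at' A) (Y := C'.at' A) (sgn p)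
        (fun k => (z k).f A) x) : ∀ k, ((C'.at' B).X k).V) k
    rw [C.tr_apply, C'.tr_apply, (z k).tr, CS.totLin_apply, map_smul]

theorem totCoch_apply {p : ℤ} (z : ∀ k, GTD.Coch (C.X k) (C'.X k) p)
    (hz : ∀ A : T.C, CS.FcComm (X := C.at' A) (Y := C'.at' A) (fun k => (z k).f A)) (A : T.C)
    (x : (C.at' A).Tot.V) (k : ℕ) :
    ((totCoch z hz).f A x : ∀ k, ((C'.at' A).X k).V) k = sgn p ^ k • (z k).f A (x k) := rfl

theorem totCoch_congr {p : ℤ} {z w : ∀ k, GTD.Coch (C.X k) (C'.X k) p}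
    {hz : ∀ A : T.C, CS.FcComm (X := C.at' A) (Y := C'.at' A) (fun k => (z k).f A)}
    {hw : ∀ A : T.C, CS.FcComm (X := C.at' A) (Y := C'.at' A) (fun k => (w k).f A)}
    (h : ∀ k A x, (z k).f A x = (w k).f A x) : totCoch z hz = totCoch w hw := by
  apply GTD.Coch.ext'
  intro A x
  funext k
  rw [totCoch_apply, totCoch_apply, h]

theorem totCoch_add {p : ℤ} {z w zw : ∀ k, GTD.Coch (C.X k) (C'.X k) p}
    {hz : ∀ A : T.C, CS.FcComm (X := C.at' A) (Y := C'.at' A) (fun k => (z k).f A)}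
    {hw : ∀ A : T.C, CS.FcComm (X := C.at' A) (Y := C'.at' A) (fun k => (w k).f A)}
    {hzw : ∀ A : T.C, CS.FcComm (X := C.at' A) (Y := C'.at' A) (fun k => (zw k).f A)}
    (h : ∀ k A x, (zw k).f A x = (z k).f A x + (w k).f A x) :
    totCoch zw hzw = totCoch z hz + totCoch w hw := by
  apply GTD.Coch.ext'
  intro A x
  funext k
  change sgn p ^ k • (zw k).f A (x k) = sgn p ^ k • (z k).f A (x k) + sgn p ^ k • (w k).f A (x k)
  rw [h, smul_add]

theorem totCoch_smul {p : ℤ} (c : ℂ) {z w : ∀ k, GTD.Coch (C.X k) (C'.X k) p}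
    {hz : ∀ A : T.C, CS.FcComm (X := C.at' A) (Y := C'.at' A) (fun k => (z k).f A)}
    {hw : ∀ A : T.C, CS.FcComm (X := C.at' A) (Y := C'.at' A) (fun k => (w k).f A)}
    (h : ∀ k A x, (w k).f A x = c • (z k).f A x) :
    totCoch w hw = c • totCoch z hz := by
  apply GTD.Coch.ext'
  intro A x
  funext k
  change sgn p ^ k • (w k).f A (x k) = c • sgn p ^ k • (z k).f A (x k)
  rw [h, smul_comm]

theorem totCoch_one {z : ∀ k, GTD.Coch (C.X k) (C.X k) 0}
    {hz : ∀ A : T.C, CS.FcComm (X := C.at' A) (Y := C.at' A) (fun k => (z k).f A)}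
    (h : ∀ k A x, (z k).f A x = x) : totCoch z hz = GTD.Coch.one C.Tot := by
  apply GTD.Coch.ext'
  intro A x
  funext k
  rw [totCoch_apply, h, sgn_zero, one_pow, one_smul]
  rfl

theorem totCoch_cmp {p q r : ℤ} (hr : p + q = r) {z : ∀ k, GTD.Coch (C.X k) (C'.X k) p}
    {w : ∀ k, GTD.Coch (C'.X k) (C''.X k) q} {v : ∀ k, GTD.Coch (C.X k) (C''.X k) r}
    {hz : ∀ A : T.C, CS.FcComm (X := C.at' A) (Y := C'.at' A) (fun k => (z k).f A)}
    {hw : ∀ A : T.C, CS.FcComm (X := C'.at' A) (Y := C''.at' A) (fun k => (w k).f A)}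
    {hv : ∀ A : T.C, CS.FcComm (X := C.at' A) (Y := C''.at' A) (fun k => (v k).f A)}
    (h : ∀ k A x, (v k).f A x = (w k).f A ((z k).f A x)) :
    totCoch v hv = (totCoch z hz).cmp (totCoch w hw) hr := by
  apply GTD.Coch.ext'
  intro A x
  funext k
  change sgn r ^ k • (v k).f A (x k) = sgn q ^ k • (w k).f A (sgn p ^ k • (z k).f A (x k))
  rw [h, map_smul, smul_smul, ← hr, sgn_add, mul_pow, mul_comm]

theorem totCoch_dl {p q : ℤ} (hq : p + 1 = q) {z : ∀ k, GTD.Coch (C.X k) (C'.X k) p}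
    {w : ∀ k, GTD.Coch (C.X k) (C'.X k) q}
    {hz : ∀ A : T.C, CS.FcComm (X := C.at' A) (Y := C'.at' A) (fun k => (z k).f A)}
    {hw : ∀ A : T.C, CS.FcComm (X := C.at' A) (Y := C'.at' A) (fun k => (w k).f A)}
    (h : ∀ k A x, (w k).f A x = ((z k).dl hq).f A x) :
    totCoch w hw = (totCoch z hz).dl hq := by
  apply GTD.Coch.ext'
  intro A x
  funext k
  have hs : sgn q = - sgn p := by rw [← hq, sgn_add, sgn_one]; ring
  have e1 : ((totCoch z hz).dl hq).f A x = (C'.at' A).D ((totCoch z hz).f A x) -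
      (p.negOnePow : ℤ) • (totCoch z hz).f A ((C.at' A).D x) := rfl
  have e2 : ∀ k, ((z k).dl hq).f A (x k) = ((C'.X k).F A).d ((z k).f A (x k)) -
      (p.negOnePow : ℤ) • (z k).f A (((C.X k).F A).d (x k)) := fun k => rfl
  rw [e1, sgn_smul, totCoch_apply, h, e2, sgn_smul]
  match k with
  | 0 =>
    change sgn q ^ 0 • (((C'.X 0).F A).d ((z 0).f A (x 0)) - sgn p • (z 0).f A (((C.X 0).F A).d (x 0)))
      = ((C'.X 0).F A).d (sgn p ^ 0 • (z 0).f A (x 0)) -
        sgn p • sgn p ^ 0 • (z 0).f A (((C.X 0).F A).d (x 0))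
    simp only [pow_zero, one_smul]
  | (k + 1) =>
    change sgn q ^ (k + 1) • (((C'.X (k + 1)).F A).d ((z (k + 1)).f A (x (k + 1))) -
        sgn p • (z (k + 1)).f A (((C.X (k + 1)).F A).d (x (k + 1))))
      = ((-1 : ℂ) ^ (k + 1) • ((C'.X (k + 1)).F A).d (sgn p ^ (k + 1) • (z (k + 1)).f A (x (k + 1)))
          + (C'.at' A).dl k (sgn p ^ k • (z k).f A (x k))) -
        sgn p • sgn p ^ (k + 1) • (z (k + 1)).f A ((-1 : ℂ) ^ (k + 1) •
          ((C.X (k + 1)).F A).d (x (k + 1)) + (C.at' A).dl k (x k))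
    have h3 : (z (k + 1)).f A ((C.at' A).dl k (x k)) = (C'.at' A).dl k ((z k).f A (x k)) :=
      (hz A).dl k (x k)
    rw [map_add, h3, map_smul, map_smul, map_smul, hs, smul_sub, smul_add, smul_add]
    have h4 : sgn p * sgn p ^ (k + 1) = sgn p ^ k := by
      rw [pow_succ, mul_comm, mul_assoc, sgn_sq, mul_one]
    rw [smul_smul (sgn p) (sgn p ^ (k + 1)) ((C'.at' A).dl k ((z k).f A (x k))), h4,
      smul_smul, smul_smul, smul_smul, smul_smul]
    have h5 : (-sgn p) ^ (k + 1) = (-1 : ℂ) ^ (k + 1) * sgn p ^ (k + 1) := by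
      rw [neg_eq_neg_one_mul, mul_pow]
    rw [h5]
    have h6 : (-1 : ℂ) ^ (k + 1) * sgn p ^ (k + 1) * sgn p =
        sgn p * sgn p ^ (k + 1) * (-1 : ℂ) ^ (k + 1) := by ring
    rw [h6]
    abel

/-- The total of a levelwise morphism. -/
def totHom (u : ∀ k, GHom (C.X k) (C'.X k))
    (hu : ∀ A : T.C, CS.FcComm (X := C.at' A) (Y := C'.at' A) (fun k => ((u k).f A).f)) :
    GHom C.Tot C'.Tot where
  f A := CS.Mor.tot (X := C.at' A) (Y := C'.at' A) ⟨fun k => (u k).f A, hu A⟩
  fn A a x := by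
    funext k
    change (1 : ℂ) ^ k • ((u k).f A).f ((C.tfn A a x : ∀ k, ((C.at' A).X k).V) k) =
      (C'.tfn A a (CS.totLin (X := C.at' A) (Y := C'.at' A) 1 (fun k => ((u k).f A).f) x) :
        ∀ k, ((C'.at' A).X k).V) k
    rw [C.tfn_apply, C'.tfn_apply, (u k).fn, CS.totLin_apply, map_smul]
  vf A a x := by
    funext k
    change (1 : ℂ) ^ k • ((u k).f A).f ((C.tvf A a x : ∀ k, ((C.at' A).X k).V) k) =
      (C'.tvf A a (CS.totLin (X := C.at' A) (Y := C'.at' A) 1 (fun k => ((u k).f A).f) x) :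
        ∀ k, ((C'.at' A).X k).V) k
    rw [C.tvf_apply, C'.tvf_apply, (u k).vf, CS.totLin_apply, map_smul]
  tr {A B} φ x := by
    funext k
    change (1 : ℂ) ^ k • ((u k).f B).f (((C.mor φ).tot.f x : ∀ k, ((C.at' B).X k).V) k) =
      ((C'.mor φ).tot.f (CS.totLin (X := C.at' A) (Y := C'.at' A) 1
        (fun k => ((u k).f A).f) x) : ∀ k, ((C'.at' B).X k).V) k
    rw [C.tr_apply, C'.tr_apply, (u k).tr, CS.totLin_apply, map_smul]

/-! ### Augmentations -/

variable (C) in
/-- An augmentation of a semi-cosimplicial family. -/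
structure Aug (Y : GTD T) where
  e : GHom Y (C.X 0)
  eq : ∀ (A : T.C) (y : (Y.F A).V),
    ((C.fc 0 0).f A).f ((e.f A).f y) = ((C.fc 0 1).f A).f ((e.f A).f y)

/-- The values of an augmentation. -/
abbrev Aug.at' {Y : GTD T} (a : C.Aug Y) (A : T.C) : CS.Aug (C.at' A) (Y.F A) :=
  ⟨a.e.f A, a.eq A⟩

/-- The augmentation as a morphism to the total. -/
def Aug.tot {Y : GTD T} (a : C.Aug Y) : GHom Y C.Tot where
  f A := (a.at' A).tot
  fn A b y := by
    funext k
    change ((a.at' A).tot.f (Y.fn A b y) : ∀ k, ((C.at' A).X k).V) k =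
      (C.tfn A b ((a.at' A).tot.f y) : ∀ k, ((C.at' A).X k).V) k
    rw [C.tfn_apply]
    match k with
    | 0 =>
      rw [CS.Aug.tot_zero, CS.Aug.tot_zero]
      exact a.e.fn A b y
    | (k + 1) => rw [CS.Aug.tot_succ, CS.Aug.tot_succ, map_zero]
  vf A b y := by
    funext k
    change ((a.at' A).tot.f (Y.vf A b y) : ∀ k, ((C.at' A).X k).V) k =
      (C.tvf A b ((a.at' A).tot.f y) : ∀ k, ((C.at' A).X k).V) k
    rw [C.tvf_apply]
    match k with
    | 0 =>
      rw [CS.Aug.tot_zero, CS.Aug.tot_zero]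
      exact a.e.vf A b y
    | (k + 1) => rw [CS.Aug.tot_succ, CS.Aug.tot_succ, map_zero]
  tr {A B} φ y := by
    funext k
    change ((a.at' B).tot.f ((Y.tr φ).f y) : ∀ k, ((C.at' B).X k).V) k =
      ((C.mor φ).tot.f ((a.at' A).tot.f y) : ∀ k, ((C.at' B).X k).V) k
    rw [C.tr_apply]
    match k with
    | 0 =>
      rw [CS.Aug.tot_zero, CS.Aug.tot_zero]
      exact a.e.tr φ y
    | (k + 1) => rw [CS.Aug.tot_succ, CS.Aug.tot_succ, map_zero]

/-- Cochains are compatible with augmentations. -/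
theorem totCoch_aug {p : ℤ} {Y Y' : GTD T} (a : C.Aug Y) (a' : C'.Aug Y')
    {z : ∀ k, GTD.Coch (C.X k) (C'.X k) p}
    {hz : ∀ A : T.C, CS.FcComm (X := C.at' A) (Y := C'.at' A) (fun k => (z k).f A)}
    (t : GTD.Coch Y Y' p) (h : ∀ A y, (z 0).f A ((a.e.f A).f y) = (a'.e.f A).f (t.f A y)) :
    a.tot.coch.cmp (totCoch z hz) (zero_add p) = t.cmp a'.tot.coch (add_zero p) := by
  apply GTD.Coch.ext'
  intro A y
  exact CS.totLin_aug (a.at' A) (a'.at' A) (sgn p) (fun k => (z k).f A) (t.f A) (h A) y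

end GCS

end

end Vale.Agent.P286.H652
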