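import Vale.Agent.P286.H389.Jg
import Vale.Agent.P286.H761.Cosi2
import Vale.Agent.P286.H652.GTot

/-!
# Completed jets of the values at the objects under `A`
-/

namespace Vale.Agent.P286.H652

open CategoryTheory TensorProduct Vale.Agent.P286.Gen Vale.Agent.P286.H295 Vale.Agent.P286.H389
  Vale.Agent.P286.H761 Vale.Agent.P286.H847

noncomputable section

section Res

variable {A A' B D : Type} [CommRing A] [Algebra ℂ A] [CommRing A'] [Algebra ℂ A'] [CommRing B]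
  [Algebra ℂ B] [CommRing D] [Algebra ℂ D]

/-- A differential operator of order one. -/
def O1 (A : Type) [CommRing A] [Algebra ℂ A] {V V' : Type} [AddCommGroup V] [Module ℂ V]
    [Module A V] [AddCommGroup V'] [Module ℂ V'] [Module A V'] (u : V →ₗ[ℂ] V') : Prop :=
  ∃ e : A → V →ₗ[ℂ] V', Ord1 A u e

/-- Restriction of scalars. -/
def res (f : A →ₐ[ℂ] B) (M : AGD B) (h : O1 B M.d) : AGD A :=
  let am : Module A M.V := Module.compHom M.V f.toRingHom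
  have hs : IsScalarTower ℂ A M.V := ⟨fun c a x => by
    change f (c • a) • x = c • (f a • x)
    rw [map_smul, smul_assoc]⟩
  { toGD := M.toGD
    am := am
    at' := hs
    sm := fun a m x hx => M.sm (f a) m x hx
    dO := by
      obtain ⟨e, he⟩ := h
      exact Ord1.do (A := A) (e := fun a => e (f a)) ⟨fun a x => he.comm (f a) x,
        fun a b x => he.lin (f a) (f b) x⟩ }

theorem res_toGD (f : A →ₐ[ℂ] B) (M : AGD B) (h : O1 B M.d) : (res f M h).toGD = M.toGD := rfl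

/-- The map of jets defined by a linear map is the map defined by the identity of `A`. -/
theorem pull_id_eq_map {V V' : Type} [AddCommGroup V] [Module ℂ V] [Module A V]
    [IsScalarTower ℂ A V] [AddCommGroup V'] [Module ℂ V'] [Module A V'] [IsScalarTower ℂ A V']
    (u : V →ₗ[ℂ] V') (h : ∀ (a : A) (x : V), u (a • x) = a • u x) (x : J A V) :
    J.pull (AlgHom.id ℂ A) u h x = J.map u (DO.lin h) x := rfl

/-- A morphism of the restrictions. -/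
def rH (f : A →ₐ[ℂ] B) {M : AGD B} (h : O1 B M.d) (g : A' →ₐ[ℂ] D) {N : AGD D}
    (h' : O1 D N.d) (u : GD.Hom M.toGD N.toGD) : GD.Hom (res f M h).toGD (res g N h').toGD := u

theorem rH_sl {f : A →ₐ[ℂ] B} {M : AGD B} {h : O1 B M.d} {g : A' →ₐ[ℂ] D} {N : AGD D}
    {h' : O1 D N.d} {u : GD.Hom M.toGD N.toGD} {v : A → A'}
    (hu : ∀ (a : A) (x : M.V), u.f (f a • x) = g (v a) • u.f x) (a : A) (x : (res f M h).V) :
    (rH f h g h' u).f (a • x) = v a • (rH f h g h' u).f x := hu a x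

end Res

section Mid

variable {N : ℕ} {Γ : Gps N}

/-- The site of `BG` has no twist. -/
theorem strBG (Γ : Gps N) : Str (BGT Γ) where
  s0 := rfl
  dl1 _ := rfl
  fid _ := rfl
  fcomp _ _ := rfl
  cen _ _ h := h

variable (Γ) in
/-- A family of graded differential modules on the test objects, with differentials of order
one. -/
structure BFam where
  M : ∀ X : Gen.BGObj Γ, AGD X.A.R
  t : ∀ {X Y : Gen.BGObj Γ} (_ : X ⟶ Y), GD.Hom (M X).toGD (M Y).toGD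
  sl : ∀ {X Y : Gen.BGObj Γ} (φ : X ⟶ Y) (a : X.A.R) (x : (M X).V),
    (t φ).f (a • x) = φ.f a • (t φ).f x
  id : ∀ (X : Gen.BGObj Γ) (x : (M X).V), (t (𝟙 X)).f x = x
  comp : ∀ {X Y Z : Gen.BGObj Γ} (φ : X ⟶ Y) (ψ : Y ⟶ Z) (x : (M X).V),
    (t (φ ≫ ψ)).f x = (t ψ).f ((t φ).f x)
  o1 : ∀ X, O1 X.A.R (M X).d

/-- The family on the test category. -/
def BFam.toJ (F : BFam Γ) : JFam (BGT Γ) := ⟨F.M, F.t, F.sl, F.id, F.comp⟩

variable (F : BFam Γ)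

/-! ### The functor on the objects under `A` -/

/-- Semilinearity over a commutative square. -/
theorem t_sq {X X' Y Y' : Gen.BGObj Γ} {ι : X ⟶ Y} {ι' : X' ⟶ Y'} {φ : X ⟶ X'} {ψ : Y ⟶ Y'}
    (h : ι ≫ ψ = φ ≫ ι') (a : X.A.R) (x : (F.M Y).V) :
    (F.t ψ).f (ι.f a • x) = ι'.f (φ.f a) • (F.t ψ).f x := by
  rw [F.sl]
  congr 1
  have e : (ι ≫ ψ).f = (φ ≫ ι').f := by rw [h]
  exact AlgHom.congr_fun e a

/-- The module of an object under `A`. -/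
abbrev uMod {A B : Gen.BGObj Γ} (ι : A ⟶ B) : AGD A.A.R := res ι.f (F.M B) (F.o1 B)

/-- The map of modules. -/
abbrev uT {A A' B B' : Gen.BGObj Γ} (ι : A ⟶ B) (ι' : A' ⟶ B') (ψ : B ⟶ B') :
    GD.Hom (uMod F ι).toGD (uMod F ι').toGD := rH ι.f (F.o1 B) ι'.f (F.o1 B') (F.t ψ)

theorem uT_sl {A A' B B' : Gen.BGObj Γ} {ι : A ⟶ B} {ι' : A' ⟶ B'} {ψ : B ⟶ B'} {φ : A ⟶ A'}
    (h : ι ≫ ψ = φ ≫ ι') (a : A.A.R) (x : (uMod F ι).V) :
    (uT F ι ι' ψ).f (a • x) = φ.f a • (uT F ι ι' ψ).f x :=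
  rH_sl (v := φ.f) (t_sq F h) a x

theorem uT_sl' {A B B' : Gen.BGObj Γ} {ι : A ⟶ B} {ι' : A ⟶ B'} {ψ : B ⟶ B'}
    (h : ι ≫ ψ = ι') (a : A.A.R) (x : (uMod F ι).V) :
    (uT F ι ι' ψ).f (a • x) = a • (uT F ι ι' ψ).f x :=
  rH_sl (v := fun a => a) (t_sq F (φ := 𝟙 A) (h.trans (Category.id_comp _).symm)) a x

/-- The map of jets over a commutative square. -/
abbrev uJ {A A' B B' : Gen.BGObj Γ} {ι : A ⟶ B} {ι' : A' ⟶ B'} {ψ : B ⟶ B'} {φ : A ⟶ A'}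
    (h : ι ≫ ψ = φ ≫ ι') : GD.Hom (JG (uMod F ι)) (JG (uMod F ι')) :=
  JG.pull φ.f (uT F ι ι' ψ) (uT_sl F h)

/-- The map of jets over the identity. -/
abbrev uJ' {A B B' : Gen.BGObj Γ} {ι : A ⟶ B} {ι' : A ⟶ B'} {ψ : B ⟶ B'} (h : ι ≫ ψ = ι') :
    GD.Hom (JG (uMod F ι)) (JG (uMod F ι')) :=
  JG.map (uT F ι ι' ψ) (uT_sl' F h)

theorem uJ'_eq {A B B' : Gen.BGObj Γ} {ι : A ⟶ B} {ι' : A ⟶ B'} {ψ : B ⟶ B'} (h : ι ≫ ψ = ι') :
    uJ' F h = uJ F (φ := 𝟙 A) (h.trans (Category.id_comp _).symm) := rfl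

theorem uJ_comp {A A' A'' B B' B'' : Gen.BGObj Γ} {ι : A ⟶ B} {ι' : A' ⟶ B'} {ι'' : A'' ⟶ B''}
    {ψ : B ⟶ B'} {φ : A ⟶ A'} (h : ι ≫ ψ = φ ≫ ι') {ψ' : B' ⟶ B''} {φ' : A' ⟶ A''}
    (h' : ι' ≫ ψ' = φ' ≫ ι'') {ψ'' : B ⟶ B''} {φ'' : A ⟶ A''} (h'' : ι ≫ ψ'' = φ'' ≫ ι'')
    (e : ψ'' = ψ ≫ ψ') (e' : φ'' = φ ≫ φ') (x : (JG (uMod F ι)).V) :
    (uJ F h'').f x = (uJ F h').f ((uJ F h).f x) := by
  subst e e'
  exact (J.pull_pull φ.f φ'.f (uT F ι ι' ψ).f (uT_sl F h) (uT F ι' ι'' ψ').f (uT_sl F h')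
    (uT F ι ι'' (ψ ≫ ψ')).f (uT_sl F h'') (F.comp ψ ψ') x).symm

theorem uJ_id {A B : Gen.BGObj Γ} {ι : A ⟶ B} {ψ : B ⟶ B} {φ : A ⟶ A} (h : ι ≫ ψ = φ ≫ ι)
    (e : ψ = 𝟙 B) (e' : φ = 𝟙 A) (x : (JG (uMod F ι)).V) :
    (uJ F h).f x = x := by
  subst e e'
  exact J.pull_id (uT F ι ι (𝟙 B)).f (uT_sl F h) (F.id B) x

/-- The functor `B ↦ J_A(M_B)` on the objects under `A`. -/
def undF (A : Gen.BGObj Γ) : GF (Under A) where
  obj B := JG (uMod F B.hom)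
  map {B D} g := uJ' F (Under.w g)
  map_id B x := uJ_id F (φ := 𝟙 A) ((Under.w (𝟙 B)).trans (Category.id_comp _).symm) rfl rfl x
  map_comp {B D E} g k x := uJ_comp F (φ := 𝟙 A) (φ' := 𝟙 A) (φ'' := 𝟙 A)
    ((Under.w g).trans (Category.id_comp _).symm) ((Under.w k).trans (Category.id_comp _).symm)
    ((Under.w (g ≫ k)).trans (Category.id_comp _).symm) rfl (Category.comp_id _).symm x

/-- The index of a face. -/
def clp (k i : ℕ) : ℕ := if i ≤ k + 1 then i else 0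

theorem clp_le (k i : ℕ) : clp k i ≤ k + 1 := by
  unfold clp
  split_ifs with h
  · exact h
  · exact Nat.zero_le _

theorem clp_eq {k i : ℕ} (h : i ≤ k + 1) : clp k i = i := if_pos h

variable [hs : Algebra.Smooth ℂ (Of Γ)]

theorem undCO_right (A : Gen.BGObj Γ) (k i : ℕ) :
    ((undCO A).fc k i).right = (undS A).fc k (clp k i) := by
  by_cases h : i ≤ k + 1
  · rw [undCO_fc A k i h, clp_eq h]
    rfl
  · have e : (undCO A).fc k i = Under.homMk ((undS A).fc k 0) (uA_fc A k 0 (Nat.zero_le _)) :=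
      dif_neg h
    have e' : clp k i = 0 := if_neg h
    rw [e, e']
    rfl

/-- The family of the values at the objects `A ⊔ P_k` under `A`. -/
def lev (k : ℕ) : JFam (BGT Γ) where
  M (A : Gen.BGObj Γ) := uMod F (uA A k)
  t {A B} φ := uT F (uA A k) (uA B k) ((undM φ).P k)
  sl {A B} φ a x := uT_sl F (uA_undM φ k) a x
  id A x := by
    have e : (undM (𝟙 (A : Gen.BGObj Γ))).P k = 𝟙 _ := undM_id A k
    exact (congrArg (fun ψ => (uT F (uA A k) (uA A k) ψ).f x) e).trans (F.id _ x)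
  comp {A B D} φ ψ x := by
    have e : (undM ((φ : (A : Gen.BGObj Γ) ⟶ B) ≫ (ψ : (B : Gen.BGObj Γ) ⟶ D))).P k =
      (undM φ).P k ≫ (undM ψ).P k := undM_comp φ ψ k
    exact (congrArg (fun ψ => (uT F (uA A k) (uA D k) ψ).f x) e).trans (F.comp _ _ x)

/-- The faces. -/
def fcR (A : Gen.BGObj Γ) (k i : ℕ) : (undS A).P k ⟶ (undS A).P (k + 1) :=
  ((undCO A).fc k i).right

theorem fcR_eq (A : Gen.BGObj Γ) (k i : ℕ) : fcR A k i = (undS A).fc k (clp k i) :=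
  undCO_right A k i

theorem fcR_of_le (A : Gen.BGObj Γ) {k i : ℕ} (h : i ≤ k + 1) : fcR A k i = (undS A).fc k i := by
  rw [fcR_eq, clp_eq h]

theorem fcR_w (A : Gen.BGObj Γ) (k i : ℕ) : uA A k ≫ fcR A k i = uA A (k + 1) := by
  rw [fcR_eq, uA_fc A k (clp k i) (clp_le k i)]

theorem fcR_undM {A B : Gen.BGObj Γ} (φ : A ⟶ B) (k i : ℕ) :
    (undM φ).P k ≫ fcR B k i = fcR A k i ≫ (undM φ).P (k + 1) := by
  rw [fcR_eq, fcR_eq]
  exact ((undM φ).face k (clp k i) (clp_le k i)).symm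

omit hs in
theorem uJ'_fn {A B B' : Gen.BGObj Γ} {ι : A ⟶ B} {ι' : A ⟶ B'} {ψ : B ⟶ B'} (h : ι ≫ ψ = ι')
    (a : A.A.R) (x : (JG (uMod F ι)).V) : (uJ' F h).f (J.fn a x) = J.fn a ((uJ' F h).f x) :=
  J.map_fn (uT F ι ι' ψ).f (DO.lin (uT_sl' F h)) a x

omit hs in
theorem uJ'_vf {A B B' : Gen.BGObj Γ} {ι : A ⟶ B} {ι' : A ⟶ B'} {ψ : B ⟶ B'} (h : ι ≫ ψ = ι')
    (v : Derivation ℂ A.A.R A.A.R) (x : (JG (uMod F ι)).V) :
    (uJ' F h).f (J.vf v x) = J.vf v ((uJ' F h).f x) :=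
  J.map_vf (uT F ι ι' ψ).f (DO.lin (uT_sl' F h)) v x

theorem face_tr {A B : Gen.BGObj Γ} (φ : A ⟶ B) (k i : ℕ) (x : (JG (uMod F (uA A k))).V) :
    (uJ' F (fcR_w B k i)).f ((uJ F (uA_undM φ k)).f x) =
      (uJ F (uA_undM φ (k + 1))).f ((uJ' F (fcR_w A k i)).f x) := by
  have h'' : uA A k ≫ (undM φ).P k ≫ fcR B k i = φ ≫ uA B (k + 1) := by
    rw [← Category.assoc, uA_undM, Category.assoc, fcR_w]
  have e1 := uJ_comp F (uA_undM φ k) (φ' := 𝟙 B)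
    ((fcR_w B k i).trans (Category.id_comp _).symm) h'' rfl (Category.comp_id φ).symm x
  have e2 := uJ_comp F (φ := 𝟙 A) ((fcR_w A k i).trans (Category.id_comp _).symm)
    (uA_undM φ (k + 1)) h'' (fcR_undM φ k i) (Category.id_comp φ).symm x
  exact e1.symm.trans e2

/-- The faces as morphisms of families. -/
def midFc (k i : ℕ) : GHom ((lev F k).JT (strBG Γ)) ((lev F (k + 1)).JT (strBG Γ)) where
  f (A : Gen.BGObj Γ) := (undF F A).map ((undCO A).fc k i)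
  fn (A : Gen.BGObj Γ) a x := uJ'_fn F (fcR_w A k i) a x
  vf (A : Gen.BGObj Γ) v x := uJ'_vf F (fcR_w A k i) v x
  tr φ x := face_tr F φ k i x

/-- The semi-cosimplicial family of the values at the objects `A ⊔ P_k`. -/
def midCS : GCS (BGT Γ) where
  X k := (lev F k).JT (strBG Γ)
  fc := midFc F
  rel k i j hi hj (A : Gen.BGObj Γ) x := ((undF F A).cs (undCO A)).rel k i j hi hj x

theorem midCS_at (A : Gen.BGObj Γ) : (midCS F).at' A = (undF F A).cs (undCO A) := rfl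

/-- The middle family. -/
abbrev mid : GTD (BGT Γ) := (midCS F).Tot

/-! ### The augmentation -/

omit hs in
/-- The transition as a map to the value at an object under `A'`. -/
def gT {A A' B : Gen.BGObj Γ} (ι : A' ⟶ B) (κ : A ⟶ B) : GD.Hom (F.M A).toGD (uMod F ι).toGD :=
  F.t κ

omit hs in
theorem gT_sl {A A' B : Gen.BGObj Γ} {χ : A ⟶ A'} {ι : A' ⟶ B} {κ : A ⟶ B} (h : κ = χ ≫ ι)
    (a : A.A.R) (x : (F.M A).V) : (gT F ι κ).f (a • x) = χ.f a • (gT F ι κ).f x := by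
  subst h
  exact F.sl (χ ≫ ι) a x

/-- The map from the jets of `M_A` to the jets of the value at an object under `A'`. -/
def gU {A A' B : Gen.BGObj Γ} {χ : A ⟶ A'} {ι : A' ⟶ B} {κ : A ⟶ B} (h : κ = χ ≫ ι) :
    GD.Hom (JG (F.M A)) (JG (uMod F ι)) :=
  JG.pull χ.f (gT F ι κ) (gT_sl F h)

omit hs in
theorem gU_uJ {A A' A'' B B' : Gen.BGObj Γ} {χ : A ⟶ A'} {ι : A' ⟶ B} {κ : A ⟶ B}
    (h : κ = χ ≫ ι) {φ : A' ⟶ A''} {ι' : A'' ⟶ B'} {ψ : B ⟶ B'} (hψ : ι ≫ ψ = φ ≫ ι')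
    {χ' : A ⟶ A''} {κ' : A ⟶ B'} (h' : κ' = χ' ≫ ι') (e : χ' = χ ≫ φ)
    (x : (JG (F.M A)).V) : (uJ F hψ).f ((gU F h).f x) = (gU F h').f x := by
  have e' : κ' = κ ≫ ψ := by rw [h', e, h, Category.assoc, Category.assoc, hψ]
  subst e
  subst e'
  exact J.pull_pull χ.f φ.f
    (gT F ι κ).f (gT_sl F h) (uT F ι ι' ψ).f (uT_sl F hψ) (gT F ι' (κ ≫ ψ)).f (gT_sl F h')
    (F.comp κ ψ) x

omit hs in
theorem gU_tr {A₀ A A' B : Gen.BGObj Γ} {χ : A ⟶ A'} {ι : A' ⟶ B} {κ : A ⟶ B}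
    (h : κ = χ ≫ ι) (φ : A₀ ⟶ A) {χ' : A₀ ⟶ A'} {κ' : A₀ ⟶ B} (h' : κ' = χ' ≫ ι)
    (e : χ' = φ ≫ χ) (x : (JG (F.M A₀)).V) :
    (gU F h).f ((JG.pull φ.f (F.t φ) (F.sl φ)).f x) = (gU F h').f x := by
  have e' : κ' = φ ≫ κ := by rw [h', e, h, Category.assoc]
  subst e
  subst e'
  exact J.pull_pull φ.f χ.f
    (F.t φ).f (F.sl φ) (gT F ι κ).f (gT_sl F h) (gT F ι (φ ≫ κ)).f (gT_sl F h') (F.comp φ κ) x

/-- The family of the completed jets. -/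
abbrev jt : GTD (BGT Γ) := F.toJ.JT (strBG Γ)

/-- The augmentation. -/
def midE : GHom (jt F) ((midCS F).X 0) where
  f (A : Gen.BGObj Γ) := gU F (χ := 𝟙 A) (ι := inl A) (Category.id_comp _).symm
  fn (A : Gen.BGObj Γ) a x := J.pull_fn (𝟙 A : A ⟶ A).f (gT F (inl A) (inl A)).f
    (gT_sl F (χ := 𝟙 A) (ι := inl A) (Category.id_comp _).symm) a x
  vf (A : Gen.BGObj Γ) v x := J.map_vf (gT F (inl A) (inl A)).f (DO.lin (gT_sl F (χ := 𝟙 A)
    (ι := inl A) (Category.id_comp _).symm)) v x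
  tr {A B} φ x := by
    have e1 := gU_tr F (A₀ := A) (A := B) (A' := B) (χ := 𝟙 _) (ι := inl B)
      (Category.id_comp _).symm φ (χ' := φ) rfl (Category.comp_id _).symm x
    have e2 := gU_uJ F (A := A) (A' := A) (A'' := B) (χ := 𝟙 _) (ι := inl A)
      (Category.id_comp _).symm (uA_undM φ 0) (χ' := φ) rfl (Category.id_comp _).symm x
    exact e1.trans e2.symm

/-- The augmentation of the semi-cosimplicial family. -/
def midAug : (midCS F).Aug (jt F) where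
  e := midE F
  eq (A : Gen.BGObj Γ) y := by
    have e0 := gU_uJ F (χ := 𝟙 A) (ι := inl A) (Category.id_comp _).symm (φ := 𝟙 A)
      ((fcR_w A 0 0).trans (Category.id_comp _).symm) (χ' := 𝟙 A) (Category.id_comp _).symm
      (Category.id_comp _).symm y
    have e1 := gU_uJ F (χ := 𝟙 A) (ι := inl A) (Category.id_comp _).symm (φ := 𝟙 A)
      ((fcR_w A 0 1).trans (Category.id_comp _).symm) (χ' := 𝟙 A) (Category.id_comp _).symm
      (Category.id_comp _).symm y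
    exact e0.trans e1.symm

/-! ### The augmentation is a quasi-isomorphism -/

omit hs in
/-- The inverse of the restriction along the identity. -/
def ofU (A : Gen.BGObj Γ) : GD.Hom (JG (uMod F (𝟙 A))) (JG (F.M A)) :=
  JG.pull (AlgHom.id ℂ A.A.R) (M := uMod F (𝟙 A)) (M' := F.M A) (GD.Hom.id (F.M A).toGD)
    (fun _ _ => rfl)

omit hs in
theorem qis_of_inv {M N : GD} (u : GD.Hom M N) (v : GD.Hom N M) (h : ∀ x, v.f (u.f x) = x)
    (k : ∀ x, u.f (v.f x) = x) : GD.Qis u :=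
  GD.Qis.of_htpy u v 0 (fun _ _ _ => zero_mem _) (fun _ x _ => by simp [h]) 0
    (fun _ _ _ => zero_mem _) (fun _ x _ => by simp [k])

omit hs in
theorem qis_congr {M N : GD} {u v : GD.Hom M N} (h : ∀ x, u.f x = v.f x) (hu : GD.Qis u) :
    GD.Qis v := by
  obtain ⟨f, _, _⟩ := u
  obtain ⟨g, _, _⟩ := v
  obtain rfl : f = g := LinearMap.ext h
  exact hu

omit hs in
theorem qis_idU (A : Gen.BGObj Γ) :
    GD.Qis (gU F (χ := 𝟙 A) (ι := 𝟙 A) (κ := 𝟙 A) (Category.id_comp _).symm) := by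
  have e1 : ∀ x : (F.M A).V, (gT F (𝟙 A) (𝟙 A)).f x = x := F.id A
  refine qis_of_inv _ (ofU F A) (fun x => ?_) (fun x => ?_)
  · refine (J.pull_pull (𝟙 A : A ⟶ A).f (AlgHom.id ℂ A.A.R) (gT F (𝟙 A) (𝟙 A)).f
      (gT_sl F (Category.id_comp _).symm) (show (uMod F (𝟙 A)).V →ₗ[ℂ] (F.M A).V from
        LinearMap.id) (fun _ _ => rfl) (LinearMap.id : (F.M A).V →ₗ[ℂ] (F.M A).V)
        (fun _ _ => rfl) (fun x => (e1 x).symm) x).trans ?_
    exact J.pull_id LinearMap.id (fun _ _ => rfl) (fun _ => rfl) x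
  · refine (J.pull_pull (AlgHom.id ℂ A.A.R) (𝟙 A : A ⟶ A).f
      (show (uMod F (𝟙 A)).V →ₗ[ℂ] (F.M A).V from LinearMap.id) (fun _ _ => rfl)
      (gT F (𝟙 A) (𝟙 A)).f (gT_sl F (Category.id_comp _).symm)
      (LinearMap.id : (uMod F (𝟙 A)).V →ₗ[ℂ] (uMod F (𝟙 A)).V)
        (fun _ _ => rfl) (fun x => (e1 x).symm) x).trans ?_
    exact J.pull_id LinearMap.id (fun _ _ => rfl) (fun _ => rfl) x

/-- **The augmentation is a quasi-isomorphism.** -/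
theorem qis_midAug (A : Gen.BGObj Γ) : GD.Qis ((midAug F).tot.f A) := by
  let c := undConU A
  refine qis_congr (u := (augOf (undF F A) (undCO A) c.e c.aug).tot.comp
    (gU F (χ := 𝟙 A) (ι := 𝟙 A) (κ := 𝟙 A) (Category.id_comp _).symm)) (fun x => ?_)
    ((c.qis (undF F A)).comp (qis_idU F A))
  have e : ((undF F A).map c.e).f
      ((gU F (χ := 𝟙 A) (ι := 𝟙 A) (κ := 𝟙 A) (Category.id_comp _).symm).f x) =
      ((midE F).f A).f x :=
    gU_uJ F (χ := 𝟙 A) (ι := 𝟙 A) (κ := 𝟙 A) (Category.id_comp _).symm (φ := 𝟙 A)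
      (ψ := inl A) rfl (χ' := 𝟙 A) (Category.id_comp _).symm (Category.id_comp _).symm x
  exact congrArg (fun y => (Pi.single 0 y : ∀ k, ((midCS F).at' A |>.X k).V)) e

end Mid

end

end Vale.Agent.P286.H652
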