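import Vale.Agent.P286.H389.Pgd
import Vale.Agent.P286.H697.DRF
import Vale.Agent.P286.H652.Und

/-!
# The comparison of a family with the completed jets of its de Rham complex
-/

namespace Vale.Agent.P286.H652

open CategoryTheory TensorProduct Vale.Agent.P286.Gen Vale.Agent.P286.H295 Vale.Agent.P286.H389
  Vale.Agent.P286.H761 Vale.Agent.P286.H847 Vale.Agent.P286.H710 Vale.Agent.P286.H697

noncomputable section

section Alg

variable {A : Type} [CommRing A] [Algebra ℂ A] (b : H710.DB ℂ A) (K : DGM A)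

/-- The dual basis in the other letters. -/
def dbo : H389.DB A := ⟨b.n, b.x, b.v, b.h⟩

theorem dbo_to : H389.DB.to (dbo b) = b := rfl

theorem D_o1 : Ord1 A (K.D b) (fun a => omL (Om.dd a)) where
  comm a x := by
    have h : ∀ y : DR ℂ A K.M.V, a • y = (algebraMap A (Om ℂ A) a) • y := fun y =>
      (algebraMap_smul (Om ℂ A) a y).symm
    rw [h, h, D_smul, Om.d_algebraMap, Om.sg.commutes, add_comm]
    rfl
  lin a c x := omL_lin _ _ _

/-- The de Rham complex of a complex of `D`-modules. -/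
def drA : AGD A where
  toGD := DGM.DRg b K
  sm a m x hx := by
    induction hx using DGM.gr_ind with
    | zero => rw [smul_zero]; exact zero_mem _
    | tmul p i h w hw x hx =>
      rw [smul_tmul']
      exact K.tmul_mem h (Submodule.smul_mem _ a hw) hx
    | add x y _ _ hx hy => rw [smul_add]; exact add_mem hx hy
  dO := (D_o1 b K).do

theorem drA_o1 : O1 A (drA b K).d := ⟨_, D_o1 b K⟩

theorem drA_toGD : (drA b K).toGD = DGM.DRg b K := rfl

theorem sgT_mem' (m : ℤ) (x : DR ℂ A K.M.V) (hx : x ∈ K.gr m) : sgT K.dA x ∈ K.gr (m + 1) := by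
  induction hx using DGM.gr_ind with
  | zero => rw [map_zero]; exact zero_mem _
  | tmul p i h w hw x hx =>
    rw [sgT_tmul]
    exact K.tmul_mem (p := p) (i := i + 1) (by omega) (Om.sg_mem hw) (K.M.dgr i x hx)
  | add x y _ _ hx hy => rw [map_add]; exact add_mem hx hy

theorem ctM_mem' (v : Derivation ℂ A A) (m : ℤ) (x : DR ℂ A K.M.V) (hx : x ∈ K.gr m) :
    ctM v x ∈ K.gr (m - 1) := by
  induction hx using DGM.gr_ind with
  | zero => rw [map_zero]; exact zero_mem _
  | tmul p i h w hw x hx =>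
    rw [ctM_tmul]
    cases p with
    | zero => rw [Om.ct_gr_zero v hw, zero_tmul]; exact zero_mem _
    | succ p => exact K.tmul_mem (p := p) (i := i) (by push_cast at h; omega) (Om.ct_mem v hw) hx
  | add x y _ _ hx hy => rw [map_add]; exact add_mem hx hy

theorem prD_mem' (q : ℕ) (m : ℤ) (x : DR ℂ A K.M.V) (hx : x ∈ K.gr m) :
    prD A K.M.V q x ∈ K.gr m := by
  induction hx using DGM.gr_ind with
  | zero => rw [map_zero]; exact zero_mem _
  | tmul p i h w hw x hx =>
    have e : prD A K.M.V q (w ⊗ₜ[A] x) = prO A q w ⊗ₜ[A] x := rfl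
    rw [e]
    by_cases hq : p = q
    · subst hq
      rw [prO_of_mem hw]
      exact K.tmul_mem h hw hx
    · rw [prO_of_ne hq hw, zero_tmul]
      exact zero_mem _
  | add x y _ _ hx hy => rw [map_add]; exact add_mem hx hy

theorem sgT_ctM (v : Derivation ℂ A A) (x : DR ℂ A K.M.V) :
    sgT K.dA (ctM v x) = - ctM v (sgT K.dA x) := by
  induction x using DR.induction with
  | zero => simp
  | tmul w x =>
    rw [ctM_tmul, sgT_tmul, sgT_tmul, ctM_tmul, Om.ct_sg, neg_tmul, neg_neg]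
  | add x y hx hy => simp only [map_add, hx, hy, neg_add]

/-- The structure used in the Poincaré lemma. -/
def pcD : PC (drA b K) where
  C := ctn (dbo b) K.C
  del := (sgT K.dA).restrictScalars ℂ
  d_eq _ := rfl
  del_lin a x := map_smul (sgT K.dA) a x
  del_nb x := sgT_dR b K.C K.C K.dA (fun v x => K.d_act v x) x
  del_io v x := sgT_ctM K v x
  del_pr x := prD_same (dbo b) (sgT K.dA).toAddMonoidHom (fun q x hx => by
    induction hx using DR.gr_ind with
    | zero => rw [map_zero]; exact zero_mem _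
    | tmul w hw m => exact DR.tmul_mem (Om.sg_mem hw) _
    | add x y _ _ hx hy => rw [map_add]; exact add_mem hx hy) 0 x
  nb_gr m x hx := by
    have h := sub_mem (K.D_mem b m x hx) (sgT_mem' K m x hx)
    have e : K.D b x = (ctn (dbo b) K.C).nb x + sgT K.dA x := rfl
    rwa [e, add_sub_cancel_right] at h
  io_gr v m x hx := ctM_mem' K v m x hx
  pr_gr m x hx := prD_mem' K 0 m x hx

/-- The inclusion of the forms of degree zero. -/
def inC : K.M.V →ₗ[ℂ] DR ℂ A K.M.V where
  toFun := inM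
  map_add' := map_add _
  map_smul' c x := by
    have h1 : c • x = algebraMap ℂ A c • x := (algebraMap_smul A c x).symm
    have h2 : c • (inM x : DR ℂ A K.M.V) = algebraMap ℂ A c • inM x :=
      (algebraMap_smul A c _).symm
    rw [RingHom.id_apply, h1, h2, inM_smul]

/-- The retraction to the forms of degree zero. -/
def outC : DR ℂ A K.M.V →ₗ[ℂ] K.M.V where
  toFun := outM A K.M.V
  map_add' := map_add _
  map_smul' c x := by
    have h1 : c • x = algebraMap ℂ A c • x := (algebraMap_smul A c x).symm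
    have h2 : c • outM A K.M.V x = algebraMap ℂ A c • outM A K.M.V x :=
      (algebraMap_smul A c _).symm
    rw [RingHom.id_apply, h1, h2, map_smul]

omit [Algebra ℂ A] in
variable (A) in
theorem inv_of_pos [Algebra ℂ A] {p : ℕ} (hp : p ≠ 0) {u : Om ℂ A} (hu : u ∈ Om.gr ℂ A p) :
    ExteriorAlgebra.algebraMapInv (R := A) (M := Ω[A⁄ℂ]) u = 0 := by
  induction hu using H710.Om.gr_induction with
  | alg a => exact absurd rfl hp
  | cons p b y hy h =>
    rw [map_mul, Om.dd]
    have : ExteriorAlgebra.algebraMapInv (R := A) (M := Ω[A⁄ℂ])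
        (ExteriorAlgebra.ι A (KaehlerDifferential.D ℂ A b)) = 0 := by
      simp [ExteriorAlgebra.algebraMapInv]
    rw [this, zero_mul]
  | smul p a y _ h => rw [map_smul, h hp, smul_zero]
  | add p x y _ _ hx hy => rw [map_add, hx hp, hy hp, add_zero]

theorem outC_ne {p : ℕ} (hp : p ≠ 0) {w : Om ℂ A} (hw : w ∈ Om.gr ℂ A p) (x : K.M.V) :
    outC K (w ⊗ₜ[A] x) = 0 := by
  change outM A K.M.V (w ⊗ₜ[A] x) = 0
  rw [outM_tmul, inv_of_pos A hp hw, zero_smul]

theorem outC_gr_ne {p : ℕ} (hp : p ≠ 0) {x : DR ℂ A K.M.V} (hx : x ∈ DR.gr ℂ A K.M.V p) :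
    outC K x = 0 := by
  induction hx using DR.gr_ind with
  | zero => exact map_zero _
  | tmul w hw m => exact outC_ne K hp hw m
  | add x y _ _ hx hy => rw [map_add, hx, hy, add_zero]

theorem outC_pr (b : H710.DB ℂ A) (x : DR ℂ A K.M.V) :
    outC K (prD A K.M.V 0 x) = outC K x := by
  conv_rhs => rw [← sum_prD (dbo b) x, map_sum]
  rw [Finset.sum_eq_single 0]
  · intro p _ hp
    exact outC_gr_ne K hp (prD_mem p x)
  · intro h
    exact absurd (Finset.mem_range.2 (Nat.succ_pos _)) h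

theorem inC_outC (b : H710.DB ℂ A) (x : DR ℂ A K.M.V) :
    inC K (outC K x) = prD A K.M.V 0 x := by
  rw [← outC_pr K b]
  exact inM_outM (prD_mem 0 x)

theorem outC_inC (x : K.M.V) : outC K (inC K x) = x := by
  change outM A K.M.V (inM x) = x
  exact outM_inM x

theorem inC_d (x : K.M.V) : inC K (K.M.d x) = sgT K.dA (inC K x) := by
  change (1 : Om ℂ A) ⊗ₜ[A] K.M.d x = sgT K.dA ((1 : Om ℂ A) ⊗ₜ[A] x)
  rw [sgT_tmul, map_one]
  rfl

theorem inC_gr (m : ℤ) (x : K.M.V) (hx : x ∈ K.M.gr m) : inC K x ∈ (drA b K).gr m :=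
  K.tmul_mem (p := 0) (i := m) (by simp) (SetLike.GradedOne.one_mem (A := fun i : ℕ =>
    ⋀[A]^i (Ω[A⁄ℂ]))) hx

theorem outC_gr (m : ℤ) (x : DR ℂ A K.M.V) (hx : x ∈ (drA b K).gr m) : outC K x ∈ K.M.gr m := by
  change x ∈ K.gr m at hx
  induction hx using DGM.gr_ind with
  | zero => rw [map_zero]; exact zero_mem _
  | tmul p i h w hw x hx =>
    by_cases hp : p = 0
    · subst hp
      have e : outC K (w ⊗ₜ[A] x) =
        ExteriorAlgebra.algebraMapInv (R := A) (M := Ω[A⁄ℂ]) w • x := rfl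
      rw [e]
      have hi : i = m := by simpa using h
      subst hi
      exact K.gr_smul _ _ _ hx
    · rw [outC_ne K hp hw]
      exact zero_mem _
  | add x y _ _ hx hy => rw [map_add]; exact add_mem hx hy

/-- The map to the completed jets of the de Rham complex. -/
def j2A : GD.Hom K.M (JG (drA b K)) :=
  (pcD b K).toJG (dbo b) K.M (inC K) (inC_d K) (inC_gr b K)

theorem j2A_apply (x : K.M.V) : (j2A b K).f x = toJ (dbo b) K.C x := rfl

/-- **The Poincaré lemma** for a complex of `D`-modules. -/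
theorem qis_j2A : GD.Qis (j2A b K) :=
  (pcD b K).qis (dbo b) K.M (inC K) (outC K) (inC_outC K b) (outC_inC K) (inC_d K) (inC_gr b K)
    (outC_gr b K)

end Alg

section Fam

variable {N : ℕ} {Γ : Gps N} (K : GTD (BGT Γ))

/-- The complex of `D`-modules over a test object. -/
def dgB (X : Gen.BGObj Γ) : DGM X.A.R := dgm (T := BGT Γ) K X

/-- The dual basis of a test object. -/
def bB (X : Gen.BGObj Γ) : H710.DB ℂ X.A.R := bT (BGT Γ) X

/-- The transition maps as additive maps. -/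
def tB {X Y : Gen.BGObj Γ} (φ : X ⟶ Y) : (dgB K X).M.V →+ (dgB K Y).M.V :=
  tA (T := BGT Γ) K (X := X) (Y := Y) φ

theorem tB_smul {X Y : Gen.BGObj Γ} (φ : X ⟶ Y) (a : X.A.R) (x : (dgB K X).M.V) :
    tB K φ (a • x) = φ.f a • tB K φ x := tA_smul (T := BGT Γ) K (X := X) (Y := Y) φ a x

theorem tB_hor {X Y : Gen.BGObj Γ} (φ : X ⟶ Y) : Hor φ.f (dgB K X).C (dgB K Y).C (tB K φ) :=
  tA_hor (T := BGT Γ) (fun _ => rfl) K (X := X) (Y := Y) φ

/-- The transition maps of the de Rham complexes. -/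
def dtB {X Y : Gen.BGObj Γ} (φ : X ⟶ Y) :
    GD.Hom (drA (bB X) (dgB K X)).toGD (drA (bB Y) (dgB K Y)).toGD :=
  drt (strBG Γ) K (X := X) (Y := Y) φ

theorem dtB_f {X Y : Gen.BGObj Γ} (φ : X ⟶ Y) :
    (dtB K φ).f = pbL φ.f (tB K φ) (tB_smul K φ) := rfl

/-- The family of the de Rham complexes. -/
def dB : BFam Γ where
  M X := drA (bB X) (dgB K X)
  t {X Y} φ := dtB K φ
  sl {X Y} φ a x := pbL_lin φ.f (tB K φ) (tB_smul K φ) a x
  id X x := drt_id (strBG Γ) K X x
  comp {X Y Z} φ ψ x := drt_comp (strBG Γ) K (X := X) (Y := Y) (Z := Z) φ ψ x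
  o1 X := drA_o1 (bB X) (dgB K X)

theorem j2_fn (X : Gen.BGObj Γ) (a : X.A.R) (x : (dgB K X).M.V) :
    (j2A (bB X) (dgB K X)).f (a • x) = J.fn a ((j2A (bB X) (dgB K X)).f x) :=
  toJ_fn (dbo (bB X)) (dgB K X).C a x

theorem j2_vf (X : Gen.BGObj Γ) (v : Derivation ℂ X.A.R X.A.R) (x : (dgB K X).M.V) :
    (j2A (bB X) (dgB K X)).f ((dgB K X).C.act v x) = J.vf v ((j2A (bB X) (dgB K X)).f x) :=
  toJ_vf (dbo (bB X)) (dgB K X).C v x

theorem j2_tr {X Y : Gen.BGObj Γ} (φ : X ⟶ Y) (x : (dgB K X).M.V) :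
    (j2A (bB Y) (dgB K Y)).f (tB K φ x) =
      (JG.pull φ.f (dtB K φ) ((dB K).sl φ)).f ((j2A (bB X) (dgB K X)).f x) :=
  (toJ_nat (dbo (bB X)) (dgB K X).C (dbo (bB Y)) (dgB K Y).C φ.f (tB K φ) (tB_smul K φ)
    (tB_hor K φ) x).symm

/-- The map to the completed jets of the de Rham complexes. -/
def j2 : GHom K (jt (dB K)) where
  f (X : Gen.BGObj Γ) := j2A (bB X) (dgB K X)
  fn (X : Gen.BGObj Γ) a x := j2_fn K X a x
  vf (X : Gen.BGObj Γ) v x := j2_vf K X v x
  tr {X Y} φ x := j2_tr K (X := X) (Y := Y) φ x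

/-- **The Poincaré lemma.** -/
theorem qis_j2 (X : Gen.BGObj Γ) : GD.Qis ((j2 K).f X) := qis_j2A (bB X) (dgB K X)

end Fam

end

end Vale.Agent.P286.H652
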