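import Vale.Agent.P286.H761.Xi
import Vale.Agent.P286.H652.J2
import Vale.Agent.P286.H652.Ins

/-!
# The middle family of a family of modules over the differential forms
-/

namespace Vale.Agent.P286.H652

open CategoryTheory TensorProduct Vale.Agent.P286.Gen Vale.Agent.P286.H295 Vale.Agent.P286.H389
  Vale.Agent.P286.H847 Vale.Agent.P286.H710 Vale.Agent.P286.H697

open Vale.Agent.P286.H761 (GauX tco tco_tmul tco_gr tco_one tco_cmp tco_dl tco_add tco_smul sgp)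

noncomputable section

variable {N : ℕ} {Γ : Gps N}

theorem oB_DRF (K : GTD (BGT Γ)) : oB (DRF (strBG Γ) K) = dB K := rfl

variable {W : SGD} {m : ℕ}

/-- The transition maps of a gauge functor are semilinear. -/
def GSl (G : GauX Γ W m) : Prop := ∀ (F : OmF (BGT Γ)) {X Y : Gen.BGObj Γ} (φ : X ⟶ Y) (a : X.A.R)
  (z : W.V ⊗[ℂ] (fib F X).M.V), (G.map F φ).f (rm X.A.R W.V (fib F X).M.V a z) =
    rm Y.A.R W.V (fib F Y).M.V (φ.f a) ((G.map F φ).f z)

variable {G : GauX Γ W m} (hG : GSl G)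

include hG in
/-- The family `X ↦ W ⊗ F(X)`. -/
def wB (F : OmF (BGT Γ)) : BFam Γ where
  M X := wA W (oA (fib F X)) (oA_o1 (fib F X))
  t φ := G.map F φ
  sl φ a x := hG F φ a x
  id X x := G.map_id F X x
  comp φ ψ x := G.map_comp F φ ψ x
  o1 X := wA_o1 W (oA (fib F X)) (oA_o1 (fib F X))

theorem wB_toGD (F : OmF (BGT Γ)) (X : Gen.BGObj Γ) :
    ((wB hG F).M X).toGD = SGD.tens W (fib F X).M := rfl

/-! ### Cochains -/

/-- The linear map of a cochain. -/
def cf {p : ℤ} {F F' : OmF (BGT Γ)} (c : OmF.Coch F F' p) (X : Gen.BGObj Γ) :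
    (fib F X).M.V →ₗ[ℂ] (fib F' X).M.V := c.f X

theorem cf_smul {p : ℤ} {F F' : OmF (BGT Γ)} (c : OmF.Coch F F' p) (X : Gen.BGObj Γ)
    (w : Om ℂ X.A.R) (x : (fib F X).M.V) : cf c X (w • x) = Om.sgz p w • cf c X x := c.smul X w x

theorem cf_lin {p : ℤ} {F F' : OmF (BGT Γ)} (c : OmF.Coch F F' p) (X : Gen.BGObj Γ) (a : X.A.R)
    (x : (fib F X).M.V) : cf c X (a • x) = a • cf c X x := by
  rw [om_alg, cf_smul, om_alg]
  congr 1
  exact AlgHom.commutes _ _

theorem wC_lin {p : ℤ} {F F' : OmF (BGT Γ)} (c : OmF.Coch F F' p) (X : Gen.BGObj Γ) (a : X.A.R)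
    (x : W.V ⊗[ℂ] (fib F X).M.V) :
    tco W p (cf c X) (rm X.A.R W.V (fib F X).M.V a x) =
      rm X.A.R W.V (fib F' X).M.V a (tco W p (cf c X) x) :=
  map_rm (sgp W p) (cf c X) (cf_lin c X) a x

/-- The cochain of the families `W ⊗ F`. -/
def wC {p : ℤ} {F F' : OmF (BGT Γ)} (c : OmF.Coch F F' p) : BCoch (wB hG F) (wB hG F') p where
  f X := tco W p (cf c X)
  lin X a x := wC_lin c X a x
  deg X m x hx := tco_gr W p (F := (fib F X).M) (G := (fib F' X).M) (c.deg X) m x hx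
  nat φ x := G.map_co c φ x

theorem wC_apply {p : ℤ} {F F' : OmF (BGT Γ)} (c : OmF.Coch F F' p) (X : Gen.BGObj Γ)
    (x : W.V ⊗[ℂ] (fib F X).M.V) : (wC hG c).f X x = tco W p (cf c X) x := rfl

end

end Vale.Agent.P286.H652
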