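import Vale.Agent.P286.H652.Mid
import Vale.Agent.P286.H459.ThSI
import Vale.Agent.P286.H64.WInst

/-!
# The middle functor for the gauge functor of a representation
-/

namespace Vale.Agent.P286.H652

open CategoryTheory TensorProduct Vale.Agent.P286.Gen Vale.Agent.P286.H295 Vale.Agent.P286.H389
  Vale.Agent.P286.H847 Vale.Agent.P286.H710 Vale.Agent.P286.H697 Vale.Agent.P286.H353
  Vale.Agent.P286.H274

open Vale.Agent.P286.H761 (GauX gauX)
open Vale.Agent.P286.H867 (yop)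
open Vale.Agent.P286.H987 (Rpn)
open Vale.Agent.P286.H64 (ctrW)

noncomputable section

/-- A contraction of the Weil algebra. -/
def Ctr.of {W : SGD} {n : ℕ} {Y : H64.LM.Yop n W} (K : H64.LM.Ctr0 Y) : Ctr W where
  o := K.one
  ep := K.eps
  h := K.h
  o_d := K.d_one
  o_sg := K.sg_one
  o_gr := K.one_gr
  ep_o := K.eps_one
  ep_d := K.eps_d
  ep_sg := K.eps_sg
  ep_gr := K.eps_gr
  h_sg := K.h_sg
  h_gr := K.h_gr
  eq := K.h_d

variable {N : ℕ} {Γ : Gps N} {I : Type} [Fintype I] [DecidableEq I] (R : Rpn Γ I)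

/-- The gauge functor is semilinear over the functions. -/
theorem slR (n : ℕ) : GSl (gauX n R) :=
  fun F {_ _} φ a z => (H459.gauT R n 0).sl F φ a z

variable (I) in
/-- The contraction. -/
def ctrR : Ctr (WK I 0) := Ctr.of (ctrW I 0)

theorem h1R (F : OmF (BGT Γ)) {X Y : Gen.BGObj Γ} (φ : X ⟶ Y) (x : (fib F X).M.V) :
    ((gauX 0 R).map F φ).f ((ctrR I).o ⊗ₜ[ℂ] x) = (ctrR I).o ⊗ₜ[ℂ] (fibt F φ).f x :=
  H374.Gau.gm1_one_tmul R φ (F.F X) (F.F Y) (F.t φ) x

variable [hs : Algebra.Smooth ℂ (Of Γ)]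

/-- The middle functor of a representation. -/
abbrev MMR : Z0 (dgc (BGT Γ)) ⥤ Z0 (gtc (BGT Γ)) := MM (slR R 0)

/-- **The field `zM'` of the assembly, for a representation.** -/
theorem zMR : NatW (gqis (BGT Γ)) (inO (BGT Γ)).z0 (MMR R) :=
  zMid (slR R 0) (ctrR I) (fun F {_ _} φ x => h1R R F φ x)

end

end Vale.Agent.P286.H652
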