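import Vale.Agent.P286.H527.BrCart

/-!
# Cartesian complexes and quasi-isomorphisms
-/

namespace Vale.Agent.P286.H652

open CategoryTheory St

noncomputable section

/-- The composition of two quasi-isomorphisms of three-term complexes. -/
theorem hiso_comp {X₁ X₂ X₃ Y₁ Y₂ Y₃ Z₁ Z₂ Z₃ : Type} [AddCommGroup X₃]
    [AddCommGroup Y₁] [AddCommGroup Y₂] [AddCommGroup Y₃] [AddCommGroup Z₁] [AddCommGroup Z₂]
    [AddCommGroup Z₃]
    {d₁ : X₁ → X₂} {d₂ : X₂ → X₃} {e₁ : Y₁ → Y₂} {e₂ : Y₂ → Y₃} {f₁ : Z₁ → Z₂} {f₂ : Z₂ → Z₃}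
    {u : X₂ → Y₂} {v : Y₂ → Z₂} {v₁ : Y₁ → Z₁}
    (hu : St.HIso d₁ d₂ e₁ e₂ u) (hv : St.HIso e₁ e₂ f₁ f₂ v)
    (hu₃ : ∀ x, d₂ x = 0 → e₂ (u x) = 0)
    (hv₁ : ∀ y, v (e₁ y) = f₁ (v₁ y)) (hvs : ∀ x y, v (x - y) = v x - v y)
    (hf : ∀ x y, f₁ (x + y) = f₁ x + f₁ y) : St.HIso d₁ d₂ f₁ f₂ (fun x => v (u x)) := by
  refine ⟨fun x hx hz => hu.1 x hx (hv.1 (u x) (hu₃ x hx) hz), fun z hz => ?_⟩
  obtain ⟨y, hy, z', e⟩ := hv.2 z hz
  obtain ⟨x, hx, y', e'⟩ := hu.2 y hy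
  refine ⟨x, hx, z' + v₁ y', ?_⟩
  rw [hf, e, ← hv₁, e', hvs]
  abel

variable {T : TSite}

theorem cxhm_add {K L : Cx T} (u : K ⟶ L) (X : T.C) (i : ℤ) (x y : K.S X i) :
    Cx.hm u X i (x + y) = Cx.hm u X i x + Cx.hm u X i y :=
  TD.hm_add (M := K.tm i) (N := L.tm i) (HomologicalComplex.Hom.f u i) X x y

theorem zero_of_add {G H : Type} [AddCommGroup G] [AddCommGroup H] {f : G → H}
    (h : ∀ x y, f (x + y) = f x + f y) : f 0 = 0 := by
  have := h 0 0
  rw [add_zero] at this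
  exact left_eq_add.1 this

theorem cxhm_zero {K L : Cx T} (u : K ⟶ L) (X : T.C) (i : ℤ) :
    Cx.hm u X i 0 = 0 := zero_of_add (cxhm_add u X i)

theorem cxhm_sub {K L : Cx T} (u : K ⟶ L) (X : T.C) (i : ℤ) (x y : K.S X i) :
    Cx.hm u X i (x - y) = Cx.hm u X i x - Cx.hm u X i y := by
  rw [eq_sub_iff_add_eq, ← cxhm_add, sub_add_cancel]

theorem cxhm_fn {K L : Cx T} (u : K ⟶ L) (X : T.C) (i : ℤ) (a : T.R X) (x : K.S X i) :
    Cx.hm u X i (K.fn X i a x) = L.fn X i a (Cx.hm u X i x) :=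
  TD.hm_ap (M := K.tm i) (N := L.tm i) (HomologicalComplex.Hom.f u i) (Arr.fn a) x

theorem cxhm_tr {K L : Cx T} (u : K ⟶ L) {X Y : T.C} (φ : X ⟶ Y) (i : ℤ) (x : K.S X i) :
    Cx.hm u Y i (K.tr φ i x) = L.tr φ i (Cx.hm u X i x) :=
  TD.hm_ap (M := K.tm i) (N := L.tm i) (HomologicalComplex.Hom.f u i) (Arr.tr φ) x

theorem cxhm_d {K L : Cx T} (u : K ⟶ L) (X : T.C) (i j : ℤ) (x : K.S X i) :
    Cx.hm u X j (K.d X i j x) = L.d X i j (Cx.hm u X i x) := by
  have h := HomologicalComplex.Hom.comm u i j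
  exact (congrArg (fun w : K.tm i ⟶ L.tm j => TD.hm w X x) h).symm

theorem cxd_add (K : Cx T) (X : T.C) (i j : ℤ) (x y : K.S X i) :
    K.d X i j (x + y) = K.d X i j x + K.d X i j y :=
  TD.hm_add (M := K.tm i) (N := K.tm j) (HomologicalComplex.d K i j) X x y

theorem cxd_zero (K : Cx T) (X : T.C) (i j : ℤ) : K.d X i j 0 = 0 := zero_of_add (cxd_add K X i j)

theorem cxd_fn (K : Cx T) (X : T.C) (i j : ℤ) (a : T.R X) (x : K.S X i) :
    K.d X i j (K.fn X i a x) = K.fn X j a (K.d X i j x) :=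
  TD.hm_ap (M := K.tm i) (N := K.tm j) (HomologicalComplex.d K i j) (Arr.fn a) x

theorem cxd_tr (K : Cx T) {X Y : T.C} (φ : X ⟶ Y) (i j : ℤ) (x : K.S X i) :
    K.d Y i j (K.tr φ i x) = K.tr φ j (K.d X i j x) :=
  TD.hm_ap (M := K.tm i) (N := K.tm j) (HomologicalComplex.d K i j) (Arr.tr φ) x

/-- A complex which receives a quasi-isomorphism from a cartesian complex is cartesian. -/
theorem cart_of_qis {K L : Cx T} (u : K ⟶ L) (hu : Cx.qis T u) (hK : Cx.Cart K) : Cx.Cart L := by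
  intro X
  obtain ⟨P, p, hp, hY⟩ := hK X
  refine ⟨P, fun i x => Cx.hm u X i (p i x), ⟨hp.flat, ?_, ?_, ?_, ?_⟩, ?_⟩
  · intro i x y
    change Cx.hm u X i (p i (x + y)) = _
    rw [hp.add, cxhm_add]
  · intro i a x
    change Cx.hm u X i (p i (a • x)) = _
    rw [hp.hom, cxhm_fn]
  · intro i j x
    rw [hp.comm, cxhm_d]
  · intro i j k hi hj
    exact hiso_comp (hp.hiso i j k hi hj) (hu X i j k hi hj) (v₁ := Cx.hm u X i)
      (fun x hx => by rw [← hp.comm, hx]; exact zero_of_add (hp.add k))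
      (fun y => cxhm_d u X i j y) (fun x y => cxhm_sub u X j x y) (fun x y => cxd_add L X i j x y)
  · intro Y φ
    obtain ⟨q, hq⟩ := hY Y φ
    have hqd : ∀ i j (w : BC (T.f φ).r P i), K.d Y i j (q i w) = q j (BC.df (T.f φ).r P i j w) := by
      intro i j w
      have h0 : K.d Y i j (q i (0 : BC (T.f φ).r P i)) =
          q j (BC.df (T.f φ).r P i j (0 : BC (T.f φ).r P i)) := by
        have h1 : BC.df (T.f φ).r P i j (0 : BC (T.f φ).r P i) = (0 : BC (T.f φ).r P j) :=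
          map_zero (ExtS.map (T.f φ).r (P.d i j))
        rw [h1, zero_of_add (hq.add i), zero_of_add (hq.add j), cxd_zero]
      have ht : ∀ b x, K.d Y i j (q i (BC.el (T.f φ).r P i b x)) =
          q j (BC.df (T.f φ).r P i j (BC.el (T.f φ).r P i b x)) := by
        intro b x
        have h1 : BC.df (T.f φ).r P i j (BC.el (T.f φ).r P i b x) =
            BC.el (T.f φ).r P j b (P.d i j x) := rfl
        rw [h1, hq.el, hq.el, cxd_fn, cxd_tr, ← hp.comm]
        rfl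
      have ha : ∀ x y : BC (T.f φ).r P i, K.d Y i j (q i x) = q j (BC.df (T.f φ).r P i j x) →
          K.d Y i j (q i y) = q j (BC.df (T.f φ).r P i j y) →
          K.d Y i j (q i (x + y)) = q j (BC.df (T.f φ).r P i j (x + y)) := by
        intro x y hx hy
        have h1 : BC.df (T.f φ).r P i j (x + y) = BC.df (T.f φ).r P i j x +
          BC.df (T.f φ).r P i j y := map_add (ExtS.map (T.f φ).r (P.d i j)) x y
        rw [h1, hq.add, hq.add, cxd_add, hx, hy]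
      exact Br.el_ind (T.f φ).r (motive := fun w => K.d Y i j (q i w) =
        q j (BC.df (T.f φ).r P i j w)) h0 ht ha w
    refine ⟨fun i x => Cx.hm u Y i (q i x), ⟨?_, ?_, ?_⟩⟩
    · intro i x y
      change Cx.hm u Y i (q i (x + y)) = _
      rw [hq.add, cxhm_add]
    · intro i b x
      rw [hq.el, cxhm_fn, cxhm_tr]
    · intro i j k hi hj
      exact hiso_comp (hq.hiso i j k hi hj) (hu Y i j k hi hj) (v₁ := Cx.hm u Y i)
        (fun x hx => by rw [hqd, hx]; exact zero_of_add (hq.add k))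
        (fun y => cxhm_d u Y i j y) (fun x y => cxhm_sub u Y j x y) (fun x y => cxd_add L Y i j x y)

end

end Vale.Agent.P286.H652
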