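import Vale.Agent.P286.H353.Fin
import Vale.Agent.P286.H652.WB

/-!
# The middle functor, and the natural quasi-isomorphism from the identity
-/

namespace Vale.Agent.P286.H652

open CategoryTheory TensorProduct Vale.Agent.P286.Gen Vale.Agent.P286.H295 Vale.Agent.P286.H389
  Vale.Agent.P286.H847 Vale.Agent.P286.H710 Vale.Agent.P286.H697 Vale.Agent.P286.H353
  Vale.Agent.P286.H274

open Vale.Agent.P286.H761 (GauX tco tco_tmul tco_gr tco_one tco_cmp tco_dl tco_add tco_smul sgp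
  sgp_even)

noncomputable section

variable {N : ℕ} {Γ : Gps N} {W : SGD} {m : ℕ} {G : GauX Γ W m} (hG : GSl G)

/-! ### The insertion -/

section Ins

variable (C : Ctr W) (h1 : ∀ (F : OmF (BGT Γ)) {X Y : Gen.BGObj Γ} (φ : X ⟶ Y)
  (x : (fib F X).M.V), (G.map F φ).f (C.o ⊗ₜ[ℂ] x) = C.o ⊗ₜ[ℂ] (fibt F φ).f x)

include h1 in
/-- The insertion `x ↦ 1 ⊗ x`. -/
def insB (F : OmF (BGT Γ)) : BHom (oB F) (wB hG F) where
  f X := cIn C (oA (fib F X)) (oA_o1 (fib F X))
  lin X a x := cIn_lin C (oA (fib F X)) (oA_o1 (fib F X)) a x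
  nat φ x := (h1 F φ x).symm

theorem qis_insB (F : OmF (BGT Γ)) (X : Gen.BGObj Γ) :
    GD.Qis ((insB hG C h1 F).jt.f X) := qis_cIn C (oA (fib F X)) (oA_o1 (fib F X))

variable [hs : Algebra.Smooth ℂ (Of Γ)]

/-- The comparison with the middle family. -/
def etaM (K : GTD (BGT Γ)) : GHom K (mid (wB hG (DRF (strBG Γ) K))) :=
  (midAug (wB hG (DRF (strBG Γ) K))).tot.comp ((insB hG C h1 (DRF (strBG Γ) K)).jt.comp (j2 K))

/-- **The comparison is a quasi-isomorphism.** -/
theorem qis_etaM (K : GTD (BGT Γ)) (X : (BGT Γ).C) : GD.Qis ((etaM hG C h1 K).f X) :=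
  (qis_midAug (wB hG (DRF (strBG Γ) K)) X).comp
    ((qis_insB hG C h1 (DRF (strBG Γ) K) X).comp (qis_j2 K X))

end Ins

/-! ### The DG functor -/

section Fun

variable [hs : Algebra.Smooth ℂ (Of Γ)]

/-- The middle functor on cochains. -/
def midL (F F' : OmF (BGT Γ)) (p : ℤ) :
    OmF.Coch F F' p →ₗ[ℂ] GTD.Coch (mid (wB hG F)) (mid (wB hG F')) p where
  toFun c := midC (wC hG c)
  map_add' c c' := midC_add (fun X x => tco_add W p (F := (fib F X).M) (G := (fib F' X).M)
    (cf c X) (cf c' X) x)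
  map_smul' t c := midC_smul t (fun X x => tco_smul W p (F := (fib F X).M) (G := (fib F' X).M)
    t (cf c X) x)

theorem midL_odl {F F' : OmF (BGT Γ)} (p q : ℤ) (c : OmF.Coch F F' p) :
    midL hG F F' q (odl p q c) = gdl p q (midL hG F F' p c) := by
  by_cases h : p + 1 = q
  · rw [odl_eq h, gdl_eq h]
    exact midC_dl h (fun X x => tco_dl W h (F := (fib F X).M) (G := (fib F' X).M) (cf c X) x)
  · rw [odl_ne h, gdl_ne h, map_zero]

/-- The middle functor. -/
def MidO : DGF (omc (BGT Γ)) (gtc (BGT Γ)) where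
  obj F := mid (wB hG F)
  map {F F'} p := midL hG F F' p
  map_one F := midC_one (fun X x => tco_one W (F := (fib F X).M) x)
  map_comp {F F' F''} {p q r} h c c' := midC_cmp h (fun X x => tco_cmp W h
    (F := (fib F X).M) (G := (fib F' X).M) (H := (fib F'' X).M) (cf c X) (cf c' X) x)
  map_d p q c := midL_odl hG p q c

/-- The middle functor on families. -/
def MidD : DGF (gtc (BGT Γ)) (gtc (BGT Γ)) := (DRFd (strBG Γ)).comp (MidO hG)

/-- The middle term of the zigzag. -/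
def MM : Z0 (dgc (BGT Γ)) ⥤ Z0 (gtc (BGT Γ)) := (inO (BGT Γ)).z0 ⋙ (MidD hG).z0

variable (C : Ctr W) (h1 : ∀ (F : OmF (BGT Γ)) {X Y : Gen.BGObj Γ} (φ : X ⟶ Y)
  (x : (fib F X).M.V), (G.map F φ).f (C.o ⊗ₜ[ℂ] x) = C.o ⊗ₜ[ℂ] (fibt F φ).f x)

theorem MidD_map {K L : GTD (BGT Γ)} (p : ℤ) (c : GTD.Coch K L p) :
    (MidD hG).map p c = midC (wC hG (DRF.coch (strBG Γ) c)) := rfl

theorem sgT_zero {A : Type} [CommRing A] [Algebra ℂ A] {V V' : Type} [AddCommGroup V]
    [Module A V] [AddCommGroup V'] [Module A V'] (u : V →ₗ[A] V') (x : DR ℂ A V) :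
    szT 0 u x = LinearMap.lTensor (Om ℂ A) u x := by
  induction x using DR.induction with
  | zero => simp
  | tmul w x =>
    rw [LinearMap.lTensor_tmul]
    change Om.sgz 0 w ⊗ₜ[A] u x = _
    rw [Om.sgz_even (by decide)]
  | add x y hx hy => rw [map_add, map_add, hx, hy]

/-- The cochain of the modules over the functions. -/
def oC {p : ℤ} {F F' : OmF (BGT Γ)} (c : OmF.Coch F F' p) : BCoch (oB F) (oB F') p where
  f X := cf c X
  lin X a x := cf_lin c X a x
  deg X m x hx := c.deg X m x hx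
  nat φ x := c.tr φ x

/-- The augmentation is natural, on elements. -/
theorem aug_nat {n : ℤ} {F F' : BFam Γ} (z : BCoch F F' n) (A : Gen.BGObj Γ)
    (x : (JG (F.M A)).V) :
    (midC z).f A (((midAug F).tot.f A).f x) = ((midAug F').tot.f A).f ((jtC z).f A x) :=
  congrArg (fun w : GTD.Coch (jt F) (mid F') n => w.f A x) (midAug_nat z)

omit hs in
/-- The insertion is natural. -/
theorem ins_nat {F F' : OmF (BGT Γ)} (c : OmF.Coch F F' 0) (A : Gen.BGObj Γ)
    (x : (JG ((oB F).M A)).V) :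
    (jtC (wC hG c)).f A (((insB hG C h1 F).jt.f A).f x) =
      ((insB hG C h1 F').jt.f A).f ((jtC (oC c)).f A x) := by
  have hl1 : ∀ (a : A.A.R) (y : ((wB hG F).M A).V), ((wC hG c).f A) (a • y) =
    a • (wC hG c).f A y := (wC hG c).lin A
  have e : (wC hG c).f A ∘ₗ ((insB hG C h1 F).f A).f =
      ((insB hG C h1 F').f A).f ∘ₗ (oC c).f A := by
    apply LinearMap.ext
    intro y
    change sgp W 0 C.o ⊗ₜ[ℂ] cf c A y = C.o ⊗ₜ[ℂ] cf c A y
    rw [sgp_even (by decide)]
  have e1 := J.map_comp ((wC hG c).f A) (DO.lin hl1) ((insB hG C h1 F).f A).f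
    (DO.lin ((insB hG C h1 F).lin A))
  have e2 := J.map_comp ((insB hG C h1 F').f A).f (DO.lin ((insB hG C h1 F').lin A))
    ((oC c).f A) (DO.lin ((oC c).lin A))
  have e3 := (e1.symm.trans (J.map_congr e _ _)).trans e2
  exact LinearMap.congr_fun e3 x

/-- The Taylor series is natural. -/
theorem toJ_szT {A : Type} [CommRing A] [Algebra ℂ A] (b : H389.DB A) {V V' : Type}
    [AddCommGroup V] [Module A V] [AddCommGroup V'] [Module A V'] (C : FC ℂ A V) (C' : FC ℂ A V')
    (u : V →ₗ[A] V') (hu : ∀ v x, u (C.act v x) = C'.act v (u x))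
    (h : ∀ (a : A) (x : DR ℂ A V), (szT 0 u).restrictScalars ℂ (a • x) =
      a • (szT 0 u).restrictScalars ℂ x) (x : V) :
    J.map ((szT 0 u).restrictScalars ℂ) (DO.lin h) (toJ b C x) = toJ b C' (u x) := by
  have e := (ctn b C).T_map (ctn b C') b ((szT 0 u).restrictScalars ℂ) h
    (fun y => by
      change szT 0 u (dR b.to C y) = dR b.to C' (szT 0 u y)
      rw [sgT_zero, sgT_zero]
      exact DGM.lT_dR b.to C C' u hu y)
    (fun y => prD_same b (szT 0 u).toAddMonoidHom (fun q y hy => by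
      change szT 0 u y ∈ DR.gr ℂ A V' q
      rw [sgT_zero]
      induction hy using DR.gr_ind with
      | zero => rw [map_zero]; exact zero_mem _
      | tmul w hw m => exact DR.tmul_mem hw _
      | add x y _ _ hx hy => rw [map_add]; exact add_mem hx hy) 0 y) (inM x)
  have e2 : (szT 0 u).restrictScalars ℂ (inM x) = inM (u x) := by
    change szT 0 u ((1 : Om ℂ A) ⊗ₜ[A] x) = _
    rw [sgT_zero]
    rfl
  rw [e2] at e
  exact e

/-- A cochain at an object, over the functions. -/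
def cB {K L : GTD (BGT Γ)} {p : ℤ} (c : GTD.Coch K L p) (A : Gen.BGObj Γ) :
    (dgB K A).M.V →ₗ[A.A.R] (dgB L A).M.V := cA c A

omit hs in
/-- The comparison with the jets is natural. -/
theorem j2_nat {K L : GTD (BGT Γ)} (c : GTD.Coch K L 0) (A : Gen.BGObj Γ)
    (x : (dgB K A).M.V) :
    (jtC (oC (DRF.coch (strBG Γ) c))).f A ((j2A (bB A) (dgB K A)).f x) =
      (j2A (bB A) (dgB L A)).f (c.f A x) :=
  toJ_szT (dbo (bB A)) (dgB K A).C (dgB L A).C (cB c A) (fun v x => c.vf A v x)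
    (fun a x => (szT 0 (cB c A)).map_smul a x) x

/-- The comparison with the middle family is natural. -/
theorem etaM_nat {K L : GTD (BGT Γ)} (c : GTD.Coch K L 0) (A : Gen.BGObj Γ)
    (x : (K.F A).V) :
    ((etaM hG C h1 L).f A).f (c.f A x) =
      ((MidD hG).map 0 c : GTD.Coch (mid _) (mid _) 0).f A (((etaM hG C h1 K).f A).f x) := by
  have e1 := j2_nat c A x
  have e2 := ins_nat hG C h1 (DRF.coch (strBG Γ) c) A ((j2A (bB A) (dgB K A)).f x)
  have e3 := aug_nat (wC hG (DRF.coch (strBG Γ) c)) A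
    (((insB hG C h1 (DRF (strBG Γ) K)).jt.f A).f ((j2A (bB A) (dgB K A)).f x))
  refine Eq.trans ?_ e3.symm
  refine Eq.trans ?_ (congrArg _ e2.symm)
  exact congrArg (fun y => ((midAug (wB hG (DRF (strBG Γ) L))).tot.f A).f
    (((insB hG C h1 (DRF (strBG Γ) L)).jt.f A).f y)) e1.symm

include C h1 in
/-- **The natural quasi-isomorphism from the identity to the middle functor.** -/
theorem natW_MidD : NatW (gqis (BGT Γ)) (𝟭 _) (MidD hG).z0 :=
  natW_g (F := 𝟭 _) (G := (MidD hG).z0) (fun K => etaM hG C h1 (gt K))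
    (fun a A x => etaM_nat hG C h1 (gz a) A x) (fun K A => qis_etaM hG C h1 (gt K) A)

include C h1 in
/-- **The field `zM'` of the assembly.** -/
theorem zMid : NatW (gqis (BGT Γ)) (inO (BGT Γ)).z0 (MM hG) :=
  (natW_MidD hG C h1).left (inO (BGT Γ)).z0

end Fun

end

end Vale.Agent.P286.H652
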